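import Vale.Agent.P216.AS.Alg707

/-!
# Lefschetz numbers of the reversal in long exact sequences (P216, block EULER)

`T → A → B → T[1]` a long exact sequence of finite dimensional spaces with compatible involutions.
-/

open Module LinearMap

namespace Vale.Agent.P216.H41

open AS

variable {k : Type*} [Field k]

section Range

variable {A B C : Type*} [AddCommGroup A] [Module k A] [AddCommGroup B] [Module k B]
  [AddCommGroup C] [Module k C]

/-- The restriction of `r` to the range of `φ`. -/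
def rr (φ : A →ₗ[k] B) (ρ : A →ₗ[k] A) (r : B →ₗ[k] B) (h : ∀ a, φ (ρ a) = r (φ a)) :
    LinearMap.range φ →ₗ[k] LinearMap.range φ :=
  r.restrict (by rintro _ ⟨a, rfl⟩; exact ⟨ρ a, h a⟩)

@[simp] theorem rr_apply (φ : A →ₗ[k] B) (ρ : A →ₗ[k] A) (r : B →ₗ[k] B)
    (h : ∀ a, φ (ρ a) = r (φ a)) (x : LinearMap.range φ) : (rr φ ρ r h x : B) = r x := rfl

theorem chi_mid [FiniteDimensional k B] (h2 : (2 : k) ≠ 0)
    {ρ : A →ₗ[k] A} {r : B →ₗ[k] B} {t : C →ₗ[k] C} (hr : ∀ b, r (r b) = b)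
    (φ : A →ₗ[k] B) (ψ : B →ₗ[k] C) (h : Function.Exact φ ψ)
    (c1 : ∀ a, φ (ρ a) = r (φ a)) (c2 : ∀ b, ψ (r b) = t (ψ b)) :
    chi r = chi (rr φ ρ r c1) + chi (rr ψ r t c2) := by
  refine chi_of_exact h2 hr (LinearMap.range φ).subtype ψ.rangeRestrict
    (Submodule.subtype_injective _) ψ.surjective_rangeRestrict ?_ (fun _ => rfl)
    (fun b => Subtype.ext (c2 b))
  intro b
  constructor
  · intro hb
    have : ψ b = 0 := congrArg Subtype.val hb
    obtain ⟨a, rfl⟩ := (h b).mp this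
    exact ⟨⟨φ a, a, rfl⟩, rfl⟩
  · rintro ⟨⟨_, a, rfl⟩, rfl⟩
    exact Subtype.ext ((h _).mpr ⟨a, rfl⟩)

theorem chi_of_subsingleton [Subsingleton A] (r : A →ₗ[k] A) : chi r = 0 := by
  have h : ∀ W : Submodule k A, finrank k W = 0 := fun W => finrank_zero_of_subsingleton
  unfold chi
  rw [h, h]
  rfl

theorem chi_rr_of_injective {ρ : A →ₗ[k] A} {r : B →ₗ[k] B} (φ : A →ₗ[k] B)
    (hφ : Function.Injective φ) (c1 : ∀ a, φ (ρ a) = r (φ a)) : chi (rr φ ρ r c1) = chi ρ := by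
  have key : ∀ ε : k, finrank k (eig (rr φ ρ r c1) ε) = finrank k (eig ρ ε) := by
    intro ε
    symm
    refine LinearEquiv.finrank_eq (LinearEquiv.ofBijective
      (LinearMap.codRestrict _ (φ.rangeRestrict.comp (eig ρ ε).subtype) ?_) ⟨?_, ?_⟩)
    · rintro ⟨a, ha⟩
      rw [mem_eig] at ha ⊢
      apply Subtype.ext
      change r (φ a) = ε • φ a
      rw [← c1, ha, map_smul]
    · rintro ⟨a, ha⟩ ⟨a', ha'⟩ he
      have : φ a = φ a' := congrArg (fun z => (((z : eig (rr φ ρ r c1) ε) :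
        LinearMap.range φ) : B)) he
      exact Subtype.ext (hφ this)
    · rintro ⟨⟨_, a, rfl⟩, hb⟩
      rw [mem_eig] at hb
      have hb' : r (φ a) = ε • φ a := congrArg Subtype.val hb
      refine ⟨⟨a, ?_⟩, rfl⟩
      rw [mem_eig]
      apply hφ
      rw [c1, hb', map_smul]
  unfold chi
  rw [key, key]

theorem chi_rr_of_left [Subsingleton A] {ρ : A →ₗ[k] A} {r : B →ₗ[k] B} (φ : A →ₗ[k] B)
    (c1 : ∀ a, φ (ρ a) = r (φ a)) : chi (rr φ ρ r c1) = 0 := by
  have : Subsingleton (LinearMap.range φ) := by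
    constructor
    rintro ⟨_, a, rfl⟩ ⟨_, b, rfl⟩
    exact Subtype.ext (by rw [Subsingleton.elim a b])
  exact chi_of_subsingleton _

theorem chi_rr_of_right [Subsingleton B] {ρ : A →ₗ[k] A} {r : B →ₗ[k] B} (φ : A →ₗ[k] B)
    (c1 : ∀ a, φ (ρ a) = r (φ a)) : chi (rr φ ρ r c1) = 0 := chi_of_subsingleton _

end Range

/-- A long exact sequence `0 → T 0 → A 0 → B 0 → T 1 → ⋯` with involutions. -/
structure LES (k : Type*) [Field k] (T A B : ℕ → Type*)
    [∀ n, AddCommGroup (T n)] [∀ n, Module k (T n)]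
    [∀ n, AddCommGroup (A n)] [∀ n, Module k (A n)]
    [∀ n, AddCommGroup (B n)] [∀ n, Module k (B n)] where
  i : ∀ n, T n →ₗ[k] A n
  j : ∀ n, A n →ₗ[k] B n
  δ : ∀ n, B n →ₗ[k] T (n + 1)
  t : ∀ n, T n →ₗ[k] T n
  a : ∀ n, A n →ₗ[k] A n
  b : ∀ n, B n →ₗ[k] B n
  inj : Function.Injective (i 0)
  ex1 : ∀ n, Function.Exact (i n) (j n)
  ex2 : ∀ n, Function.Exact (j n) (δ n)
  ex3 : ∀ n, Function.Exact (δ n) (i (n + 1))
  tt : ∀ n x, t n (t n x) = x
  aa : ∀ n x, a n (a n x) = x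
  bb : ∀ n x, b n (b n x) = x
  ci : ∀ n x, i n (t n x) = a n (i n x)
  cj : ∀ n x, j n (a n x) = b n (j n x)
  cδ : ∀ n x, δ n (b n x) = t (n + 1) (δ n x)

namespace LES

variable {T A B : ℕ → Type*}
    [∀ n, AddCommGroup (T n)] [∀ n, Module k (T n)]
    [∀ n, AddCommGroup (A n)] [∀ n, Module k (A n)]
    [∀ n, AddCommGroup (B n)] [∀ n, Module k (B n)]
    [∀ n, FiniteDimensional k (T n)] [∀ n, FiniteDimensional k (A n)]
    [∀ n, FiniteDimensional k (B n)] (S : LES k T A B)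

include S

/-- alternating sum of the integer traces -/
theorem sum_chi (h2 : (2 : k) ≠ 0) (m : ℕ) :
    ∑ n ∈ Finset.range (m + 1), (-1 : ℤ) ^ n * chi (S.a n) =
      ∑ n ∈ Finset.range (m + 1), (-1 : ℤ) ^ n * chi (S.t n) +
      ∑ n ∈ Finset.range (m + 1), (-1 : ℤ) ^ n * chi (S.b n) -
      (-1) ^ m * chi (rr (S.δ m) (S.b m) (S.t (m + 1)) (S.cδ m)) := by
  have hA : ∀ n, chi (S.a n) = chi (rr (S.i n) (S.t n) (S.a n) (S.ci n)) +
      chi (rr (S.j n) (S.a n) (S.b n) (S.cj n)) := fun n =>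
    chi_mid h2 (S.aa n) _ _ (S.ex1 n) (S.ci n) (S.cj n)
  have hB : ∀ n, chi (S.b n) = chi (rr (S.j n) (S.a n) (S.b n) (S.cj n)) +
      chi (rr (S.δ n) (S.b n) (S.t (n + 1)) (S.cδ n)) := fun n =>
    chi_mid h2 (S.bb n) _ _ (S.ex2 n) (S.cj n) (S.cδ n)
  have hT : ∀ n, chi (S.t (n + 1)) = chi (rr (S.δ n) (S.b n) (S.t (n + 1)) (S.cδ n)) +
      chi (rr (S.i (n + 1)) (S.t (n + 1)) (S.a (n + 1)) (S.ci (n + 1))) := fun n =>
    chi_mid h2 (S.tt (n + 1)) _ _ (S.ex3 n) (S.cδ n) (S.ci (n + 1))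
  have hT0 : chi (S.t 0) = chi (rr (S.i 0) (S.t 0) (S.a 0) (S.ci 0)) :=
    (chi_rr_of_injective _ S.inj (S.ci 0)).symm
  induction m with
  | zero =>
    simp only [zero_add, Finset.sum_range_one, pow_zero, one_mul]
    rw [hA 0, hB 0, hT0]
    ring
  | succ m ih =>
    rw [Finset.sum_range_succ, ih, Finset.sum_range_succ (fun n => (-1 : ℤ) ^ n * chi (S.t n))
      (m + 1), Finset.sum_range_succ (fun n => (-1 : ℤ) ^ n * chi (S.b n)) (m + 1),
      hA (m + 1), hB (m + 1), hT m]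
    ring

/-- If the relative terms are balanced and `B m = 0` the Lefschetz numbers agree. -/
theorem lef_eq (h2 : (2 : k) ≠ 0) (hT : ∀ n, chi (S.t n) = 0) {m : ℕ}
    (hB : finrank k (B m) = 0) :
    ∑ n ∈ Finset.range (m + 1), (-1 : ℤ) ^ n * chi (S.a n) =
      ∑ n ∈ Finset.range (m + 1), (-1 : ℤ) ^ n * chi (S.b n) := by
  have hs : Subsingleton (B m) := finrank_zero_iff.mp hB
  rw [S.sum_chi h2 m, chi_rr_of_left, mul_zero, sub_zero,
    Finset.sum_eq_zero (fun n _ => by rw [hT n, mul_zero]), zero_add]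

/-- the same if `T (m+1) = 0`. -/
theorem lef_eq' (h2 : (2 : k) ≠ 0) (hT : ∀ n, chi (S.t n) = 0) {m : ℕ}
    (hB : finrank k (T (m + 1)) = 0) :
    ∑ n ∈ Finset.range (m + 1), (-1 : ℤ) ^ n * chi (S.a n) =
      ∑ n ∈ Finset.range (m + 1), (-1 : ℤ) ^ n * chi (S.b n) := by
  have hs : Subsingleton (T (m + 1)) := finrank_zero_iff.mp hB
  rw [S.sum_chi h2 m, chi_rr_of_right, mul_zero, sub_zero,
    Finset.sum_eq_zero (fun n _ => by rw [hT n, mul_zero]), zero_add]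

end LES

/-- An involution acting as the identity has `chi = dim`. -/
theorem chi_id {A : Type*} [AddCommGroup A] [Module k A] [FiniteDimensional k A]
    (h2 : (2 : k) ≠ 0) (r : A →ₗ[k] A) (hr : ∀ x, r x = x) : chi r = finrank k A := by
  have h1 : eig r (1 : k) = ⊤ := by
    ext x
    rw [mem_eig]
    simp [hr]
  have h3 : eig r (-1 : k) = ⊥ := by
    ext x
    rw [mem_eig, hr, neg_one_smul, Submodule.mem_bot]
    constructor
    · intro h
      have : (2 : k) • x = 0 := by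
        rw [two_smul]
        nth_rw 2 [h]
        abel
      exact (smul_eq_zero.mp this).resolve_left h2
    · rintro rfl; simp
  unfold chi
  rw [h1, h3]
  simp

end Vale.Agent.P216.H41
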