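import Vale.Agent.P216.H41.Fin2

/-!
# Finite rank of restriction maps between nested pairs, uniformly in the field
(P216, block FINRANK)

`rk g χ X' A' X A p` is the rank of `H^p(X', A') → H^p(X, A)` (`χ`-equivariant Alexander-Spanier
cohomology of P265/H336).
-/

open Set Finset

namespace Vale.Agent.P216.H41

open Vale.Agent.P265.AS

section Rank

variable {E E' : Type} [PseudoMetricSpace E] [PseudoMetricSpace E'] {k : Type} [Field k]

/-- The rank of the restriction `H^p(X', A') → H^p(X, A)`. -/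
noncomputable def rk (g : E → E) (χ : k) (X' A' X A : Set E) (p : ℕ) : Cardinal :=
  qr (Zs g χ X' A' p) (Bs g χ X A p)

theorem rk_self (g : E → E) (χ : k) (X A : Set E) (p : ℕ) : rk g χ X A X A p = hh g χ X A p := rfl

/-- If the inclusion `(X, A) → (X', A')` factors, up to homotopy, through `(Y, B)` then the rank is
at most the dimension of `H^p(Y, B)`. -/
theorem rk_le_of_factor {g : E → E} {g' : E' → E'} {X A X' A' : Set E} {Y B : Set E'}
    {F : E → E'} {G : E' → E} {H : ℝ → E → E} (hF : IsMapP g g' X A Y B F)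
    (hG : IsMapP g' g Y B X' A' G) (hH : IsHtpy g g X A X' A' H)
    (h0 : ∀ x ∈ X, H 0 x = x) (h1 : ∀ x ∈ X, H 1 x = G (F x)) (hA : A ⊆ X) (hB : B ⊆ Y) (χ : k)
    (p : ℕ) : rk g χ X' A' X A p ≤ hh g' χ Y B p := by
  refine qr_le_of_inj (pb G) (fun c hc => pb_mem_Zs hG hB hc) fun c hc hcB => ?_
  have e1 := pb_mem_Bs hF hA hcB
  have e2 := homotopy hH hA hc
  have e3 := (Bs g χ X A p).sub_mem e1 e2
  refine Bs_congr e3 one_pos fun x hx => ?_
  have a0 : H 0 ∘ x = x := funext fun i => h0 _ (hx.1 i)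
  have a1 : H 1 ∘ x = G ∘ F ∘ x := funext fun i => h1 _ (hx.1 i)
  simp only [Pi.sub_apply, pb_apply, a0, a1]
  ring

/-- Monotonicity: bigger source, smaller target. -/
theorem rk_mono {g : E → E} {χ : k} {X₁ A₁ X₂ A₂ X₃ A₃ X₄ A₄ : Set E} (h1 : X₂ ⊆ X₁)
    (h1' : A₂ ⊆ A₁) (h3 : X₄ ⊆ X₃) (h3' : A₄ ⊆ A₃) (p : ℕ) :
    rk g χ X₁ A₁ X₄ A₄ p ≤ rk g χ X₂ A₂ X₃ A₃ p :=
  qr_le_of_inj LinearMap.id (fun _ hc => Zs_restrict h1 h1' hc)
    fun _ _ h => Bs_restrict h3 h3' h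

end Rank

section Nerve

variable {V : Type} [NormedAddCommGroup V] [NormedSpace ℝ V]

/-- the bump functions -/
noncomputable def bmp {N : ℕ} (p : Fin N → V) (r : ℝ) (v : V) (i : Fin N) : ℝ :=
  max (r - dist v (p i)) 0

/-- the partition of unity -/
noncomputable def pou {N : ℕ} (p : Fin N → V) (r : ℝ) (v : V) (i : Fin N) : ℝ :=
  bmp p r v i / ∑ j, bmp p r v j

theorem bmp_nonneg {N : ℕ} (p : Fin N → V) (r : ℝ) (v : V) (i : Fin N) : 0 ≤ bmp p r v i :=
  le_max_right _ _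

theorem bmp_sum_pos {N : ℕ} {p : Fin N → V} {r : ℝ} {v : V} (h : ∃ i, dist v (p i) < r) :
    0 < ∑ j, bmp p r v j := by
  obtain ⟨i, hi⟩ := h
  refine lt_of_lt_of_le ?_ (Finset.single_le_sum (fun j _ => bmp_nonneg p r v j)
    (Finset.mem_univ i))
  exact lt_max_of_lt_left (by linarith)

theorem continuous_bmp {N : ℕ} (p : Fin N → V) (r : ℝ) (i : Fin N) :
    Continuous fun v => bmp p r v i := by
  unfold bmp; fun_prop

theorem continuousOn_pou {N : ℕ} (p : Fin N → V) (r : ℝ) :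
    ContinuousOn (pou p r) {v | ∃ i, dist v (p i) < r} := by
  refine continuousOn_pi.2 fun i => ?_
  refine ContinuousOn.div (continuous_bmp p r i).continuousOn
    (continuous_finsetSum _ fun j _ => continuous_bmp p r j).continuousOn fun v hv => ?_
  exact (bmp_sum_pos hv).ne'

theorem pou_mem {N : ℕ} {p : Fin N → V} {r : ℝ} {v : V} (h : ∃ i, dist v (p i) < r) :
    pou p r v ∈ stdSimplex ℝ (Fin N) := by
  have h1 := bmp_sum_pos h
  refine ⟨fun i => div_nonneg (bmp_nonneg p r v i) h1.le, ?_⟩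
  unfold pou
  rw [← Finset.sum_div, div_self h1.ne']

theorem pou_eq_zero {N : ℕ} {p : Fin N → V} {r : ℝ} {v : V} {i : Fin N}
    (h : ¬ dist v (p i) < r) : pou p r v i = 0 := by
  unfold pou bmp
  rw [max_eq_right (by linarith), zero_div]

theorem dist_sum_le {N : ℕ} {p : Fin N → V} {r : ℝ} {v : V} {x : Fin N → ℝ}
    (hx : x ∈ stdSimplex ℝ (Fin N)) (h : ∀ i, x i ≠ 0 → dist (p i) v ≤ r) :
    dist (∑ i, x i • p i) v ≤ r := by
  have h1 : v = ∑ i, x i • v := by rw [← Finset.sum_smul, hx.2, one_smul]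
  rw [dist_eq_norm]
  nth_rw 1 [h1]
  rw [← Finset.sum_sub_distrib]
  calc ‖∑ i, (x i • p i - x i • v)‖ ≤ ∑ i, ‖x i • p i - x i • v‖ := norm_sum_le _ _
    _ ≤ ∑ i, x i * r := by
        refine Finset.sum_le_sum fun i _ => ?_
        rw [← smul_sub, norm_smul, Real.norm_of_nonneg (hx.1 i)]
        by_cases h0 : x i = 0
        · rw [h0]; simp
        · refine mul_le_mul_of_nonneg_left ?_ (hx.1 i)
          rw [← dist_eq_norm]
          exact h i h0
    _ = r := by rw [← Finset.sum_mul, hx.2, one_mul]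

/-- **FINRANK in a chart.** `φ`, `ψ` are mutually inverse charts; `X` is compact, and the closed
`ε`-neighbourhoods of `φ X`, `φ A` are mapped by `ψ` to `X'`, `A'`. Then the rank of
`H^j(X', A'; k) → H^j(X, A; k)` is at most `C j` for every field `k`, with `C j = 0` for large `j`. -/
theorem finrank_chart [FiniteDimensional ℝ V] {E : Type} [PseudoMetricSpace E]
    {X A X' A' : Set E} (φ : E → V) (ψ : V → E) (hX : IsCompact X) (hA : A ⊆ X)
    (hφ : ContinuousOn φ X) {ε : ℝ} (hε : 0 < ε)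
    (hψ : ContinuousOn ψ {v | ∃ x ∈ X, dist v (φ x) ≤ ε})
    (hψφ : ∀ x ∈ X, ψ (φ x) = x)
    (hX' : ∀ x ∈ X, ∀ v, dist v (φ x) ≤ ε → ψ v ∈ X')
    (hA' : ∀ x ∈ A, ∀ v, dist v (φ x) ≤ ε → ψ v ∈ A') :
    ∃ (N : ℕ) (C : ℕ → ℕ), (∀ j, N ≤ j → C j = 0) ∧
      ∀ {k : Type} [Field k] (χ : k) (j : ℕ), rk id χ X' A' X A j ≤ C j := by
  classical
  have hX0 : IsCompact (φ '' X) := hX.image_of_continuousOn hφ
  set Kε : Set V := {v | ∃ x ∈ X, dist v (φ x) ≤ ε} with hKε
  have hKc : IsCompact Kε := by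
    have : Kε = Metric.cthickening ε (φ '' X) := by
      rw [hX0.cthickening_eq_biUnion_closedBall hε.le]
      ext v
      simp only [hKε, Set.mem_ofPred_eq, Set.mem_iUnion, Metric.mem_closedBall, exists_prop,
        Set.exists_mem_image]
    rw [this]
    exact hX0.cthickening
  -- a finite net
  obtain ⟨t, htX, htf, hcov⟩ : ∃ t ⊆ φ '' X, t.Finite ∧ φ '' X ⊆ ⋃ x ∈ t, Metric.ball x ε :=
    hX0.finite_cover_balls hε
  obtain ⟨N, p, hp⟩ : ∃ (N : ℕ) (p : Fin N → V), Set.range p = t := by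
    obtain ⟨n, f, hf⟩ := htf.fin_embedding
    exact ⟨n, f, hf⟩
  have hnet : ∀ x ∈ X, ∃ i, dist (φ x) (p i) < ε := by
    intro x hx
    have := hcov ⟨x, hx, rfl⟩
    simp only [Set.mem_iUnion, Metric.mem_ball, exists_prop] at this
    obtain ⟨y, hy, hxy⟩ := this
    rw [← hp] at hy
    obtain ⟨i, rfl⟩ := hy
    exact ⟨i, hxy⟩
  set S : Finset (Finset (Fin N)) := Finset.univ.filter fun I =>
    ∃ x ∈ X, ∀ i ∈ I, dist (φ x) (p i) < ε with hS
  set T : Finset (Finset (Fin N)) := Finset.univ.filter fun I =>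
    ∃ x ∈ A, ∀ i ∈ I, dist (φ x) (p i) < ε with hT
  have hSfc : FC S := by
    intro I hI J hJ
    obtain ⟨x, hx, h⟩ := (Finset.mem_filter.1 hI).2
    exact Finset.mem_filter.2 ⟨Finset.mem_univ _, x, hx, fun i hi => h i (hJ.1 hi)⟩
  have hTfc : FC T := by
    intro I hI J hJ
    obtain ⟨x, hx, h⟩ := (Finset.mem_filter.1 hI).2
    exact Finset.mem_filter.2 ⟨Finset.mem_univ _, x, hx, fun i hi => h i (hJ.1 hi)⟩
  have hTS : T ⊆ S := by
    intro I hI
    obtain ⟨x, hx, h⟩ := (Finset.mem_filter.1 hI).2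
    exact Finset.mem_filter.2 ⟨Finset.mem_univ _, x, hA hx, h⟩
  have hFmem : ∀ x ∈ X, pou p ε (φ x) ∈ smp (Finset.univ.filter fun i => dist (φ x) (p i) < ε) := by
    intro x hx
    refine ⟨pou_mem (hnet x hx), fun i hi => pou_eq_zero fun h => hi ?_⟩
    exact Finset.mem_filter.2 ⟨Finset.mem_univ _, h⟩
  have hFX : ∀ x ∈ X, pou p ε (φ x) ∈ cpx S := fun x hx =>
    ⟨_, Finset.mem_filter.2 ⟨Finset.mem_univ _, x, hx, fun i hi => (Finset.mem_filter.1 hi).2⟩,
      hFmem x hx⟩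
  have hFA : ∀ x ∈ A, pou p ε (φ x) ∈ cpx T := fun x hx =>
    ⟨_, Finset.mem_filter.2 ⟨Finset.mem_univ _, x, hx, fun i hi => (Finset.mem_filter.1 hi).2⟩,
      hFmem x (hA hx)⟩
  have hFc : ContinuousOn (fun x => pou p ε (φ x)) X :=
    (continuousOn_pou p ε).comp hφ fun x hx => hnet x hx
  set b : (Fin N → ℝ) → V := fun x => ∑ i, x i • p i with hb
  have hbc : Continuous b := continuous_finsetSum _ fun i _ =>
    (continuous_apply i).smul continuous_const
  have hbS : ∀ x ∈ cpx S, ∃ y ∈ X, dist (b x) (φ y) ≤ ε := by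
    rintro x ⟨I, hI, hx⟩
    obtain ⟨y, hy, h⟩ := (Finset.mem_filter.1 hI).2
    refine ⟨y, hy, dist_sum_le hx.1 fun i hi => ?_⟩
    rw [dist_comm]
    refine (h i ?_).le
    by_contra hiI
    exact hi (hx.2 i hiI)
  have hbT : ∀ x ∈ cpx T, ∃ y ∈ A, dist (b x) (φ y) ≤ ε := by
    rintro x ⟨I, hI, hx⟩
    obtain ⟨y, hy, h⟩ := (Finset.mem_filter.1 hI).2
    refine ⟨y, hy, dist_sum_le hx.1 fun i hi => ?_⟩
    rw [dist_comm]
    refine (h i ?_).le
    by_contra hiI
    exact hi (hx.2 i hiI)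
  have hbF : ∀ x ∈ X, dist (b (pou p ε (φ x))) (φ x) ≤ ε := by
    intro x hx
    refine dist_sum_le (pou_mem (hnet x hx)) fun i hi => ?_
    rw [dist_comm]
    by_contra h
    exact hi (pou_eq_zero fun h' => h h'.le)
  have hseg : ∀ s ∈ Icc (0 : ℝ) 1, ∀ x ∈ X,
      dist (φ x + s • (b (pou p ε (φ x)) - φ x)) (φ x) ≤ ε := by
    intro s hs x hx
    rw [dist_eq_norm, add_sub_cancel_left, norm_smul, Real.norm_of_nonneg hs.1, ← dist_eq_norm]
    calc s * dist (b (pou p ε (φ x))) (φ x) ≤ 1 * ε :=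
          mul_le_mul hs.2 (hbF x hx) dist_nonneg zero_le_one
      _ = ε := one_mul ε
  refine ⟨N + 1, fun j => ((S \ T).filter fun I => I.card = j + 1).card, ?_, ?_⟩
  · intro j hj
    rw [Finset.card_eq_zero, Finset.filter_eq_empty_iff]
    intro I _ hI
    have := Finset.card_le_univ I
    rw [Fintype.card_fin] at this
    omega
  intro k _ χ j
  refine le_trans (rk_le_of_factor (g' := id) (Y := cpx S) (B := cpx T)
    (F := fun x => pou p ε (φ x)) (G := fun x => ψ (b x))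
    (H := fun s x => ψ (φ x + s • (b (pou p ε (φ x)) - φ x))) ?_ ?_ ?_ ?_ ?_ hA (cpx_mono hTS) χ j)
    (hh_cpx_le χ j _ S T hSfc hTfc hTS rfl)
  · exact ⟨hFX, hFA, fun _ _ => rfl, uc_of_compact' hX hFc⟩
  · refine ⟨fun x hx => ?_, fun x hx => ?_, fun _ _ => rfl, uc_of_compact' (isCompact_cpx S) ?_⟩
    · obtain ⟨y, hy, h⟩ := hbS x hx
      exact hX' y hy _ h
    · obtain ⟨y, hy, h⟩ := hbT x hx
      exact hA' y hy _ h
    · exact hψ.comp hbc.continuousOn fun x hx => hbS x hx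
  · refine ⟨fun s hs x hx => hX' x hx _ (hseg s hs x hx),
      fun s hs x hx => hA' x hx _ (hseg s hs x (hA hx)), fun _ _ _ _ => rfl,
      uc_of_compact hX ?_⟩
    refine hψ.comp ?_ fun q hq => ⟨q.2, hq.2, hseg q.1 hq.1 q.2 hq.2⟩
    have h1 : ContinuousOn (fun q : ℝ × E => φ q.2) (Icc (0 : ℝ) 1 ×ˢ X) :=
      hφ.comp continuous_snd.continuousOn fun q hq => hq.2
    have h2 : ContinuousOn (fun q : ℝ × E => b (pou p ε (φ q.2))) (Icc (0 : ℝ) 1 ×ˢ X) :=
      (hbc.comp_continuousOn hFc).comp continuous_snd.continuousOn fun q hq => hq.2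
    exact h1.add (continuous_fst.continuousOn.smul (h2.sub h1))
  · intro x hx
    simp only [zero_smul, add_zero]
    exact hψφ x hx
  · intro x hx
    simp only [one_smul, add_sub_cancel]

end Nerve

end Vale.Agent.P216.H41
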