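import Vale.Agent.P216.H41.Eul2
import Vale.Agent.P216.A215.Stmt
import Mathlib.Analysis.Normed.Module.FiniteDimension

/-!
# The Euler characteristic of a space homotopy equivalent to a finite simplicial complex
(P216, block EULER)
-/

open Set Finset

namespace Vale.Agent.P216.H41

open Vale.Agent.P216.AS
open Vale.Agent.P265.AS (hh Zs Bs qr)

/-! ### Homotopy equivalences of compact spaces -/

section HE

variable {E' : Type} [PseudoMetricSpace E'] {k : Type} [Field k]

theorem subsingleton_Ha {E I : Type} [PseudoMetricSpace E] {a : I → E → E} {χ : I → k}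
    {X : Set E} (hX : X = ∅) (n : ℕ) : Subsingleton (Ha a χ X n) := by
  subst hX
  rw [H.subsingleton_iff]
  intro x hx
  exact T_le_Bc _ _ _ ⟨hx.1, 1, one_pos, fun y hy => absurd (hy.1 0) (Set.notMem_empty _)⟩

/-- A homotopy equivalence of a compact space with a compact set: same cohomology. -/
theorem nonempty_equiv_of_homotopyEquiv {M : Type} [PseudoMetricSpace M] [CompactSpace M]
    {X' : Set E'} (hX' : IsCompact X') (e : ContinuousMap.HomotopyEquiv M X') (n : ℕ) :
    Nonempty (Hs k X' n ≃ₗ[k] Hs k (univ : Set M) n) := by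
  classical
  rcases isEmpty_or_nonempty M with hM | ⟨⟨m₀⟩⟩
  · have hXe : X' = ∅ := by
      rw [Set.eq_empty_iff_forall_notMem]
      intro x hx
      exact hM.false (e.invFun ⟨x, hx⟩)
    have s1 : Subsingleton (Hs k X' n) := subsingleton_Ha hXe n
    have s2 : Subsingleton (Hs k (univ : Set M) n) :=
      subsingleton_Ha (Set.univ_eq_empty_iff.2 hM) n
    exact ⟨{ (0 : Hs k X' n →ₗ[k] Hs k (univ : Set M) n) with
      invFun := 0
      left_inv := fun _ => Subsingleton.elim _ _
      right_inv := fun _ => Subsingleton.elim _ _ }⟩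
  · obtain ⟨F⟩ := e.left_inv.symm
    obtain ⟨F'⟩ := e.right_inv.symm
    set f : M → E' := fun x => (e.toFun x : E') with hf
    set g : E' → M := fun y => if h : y ∈ X' then e.invFun ⟨y, h⟩ else m₀ with hg
    have hgX : ∀ y (h : y ∈ X'), g y = e.invFun ⟨y, h⟩ := fun y h => dif_pos h
    set D : ℝ → M → M := fun s x => F (projIcc 0 1 zero_le_one s, x) with hD
    set D' : ℝ → E' → E' := fun s y =>
      if h : y ∈ X' then (F' (projIcc 0 1 zero_le_one s, ⟨y, h⟩) : E') else y with hD'
    have hD'X : ∀ s y (h : y ∈ X'), D' s y = F' (projIcc 0 1 zero_le_one s, ⟨y, h⟩) :=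
      fun s y h => dif_pos h
    have mf : IsMap (tr M) (tr E') (univ : Set M) X' f := by
      refine IsMap.of_continuousOn isCompact_univ ?_ (fun x _ => (e.toFun x).2) fun _ _ _ => rfl
      exact (continuous_subtype_val.comp e.toFun.continuous).continuousOn
    have mg : IsMap (tr E') (tr M) X' (univ : Set M) g := by
      refine IsMap.of_continuousOn hX' ?_ (fun x _ => trivial) fun _ _ _ => rfl
      rw [continuousOn_iff_continuous_domRestrict]
      have : X'.domRestrict g = e.invFun := funext fun y => hgX y.1 y.2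
      rw [this]
      exact e.invFun.continuous
    have hDh : IsHtpy (tr M) (tr M) (univ : Set M) univ D := by
      refine IsHtpy.of_continuousOn isCompact_univ ?_ (fun _ _ _ _ => trivial)
        fun _ _ _ _ _ => rfl
      refine Continuous.continuousOn ?_
      exact F.continuous.comp ((continuous_projIcc.comp continuous_fst).prodMk continuous_snd)
    have hD'h : IsHtpy (tr E') (tr E') X' X' D' := by
      refine IsHtpy.of_continuousOn hX' ?_ (fun s _ y hy => ?_) fun _ _ _ _ _ => rfl
      · rw [continuousOn_iff_continuous_domRestrict]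
        have : (Icc (0 : ℝ) 1 ×ˢ X').domRestrict (fun q : ℝ × E' => D' q.1 q.2) = fun q =>
            ((F' (projIcc 0 1 zero_le_one q.1.1, ⟨q.1.2, q.2.2⟩) : X') : E') :=
          funext fun q => hD'X q.1.1 q.1.2 q.2.2
        rw [this]
        refine continuous_subtype_val.comp (F'.continuous.comp
          ((continuous_projIcc.comp (continuous_fst.comp continuous_subtype_val)).prodMk ?_))
        exact Continuous.subtype_mk (continuous_snd.comp continuous_subtype_val) _
      · rw [hD'X s y hy]
        exact Subtype.coe_prop _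
    have h0 : projIcc (0 : ℝ) 1 zero_le_one 0 = 0 := projIcc_left _
    have h1 : projIcc (0 : ℝ) 1 zero_le_one 1 = 1 := projIcc_right _
    have key := pull_bijective (k := k) (χ := fun _ : Unit => (1 : k)) mf mg hDh hD'h
      (fun x _ => by rw [hD]; simp only; rw [h0, F.apply_zero]; rfl)
      (fun x _ => by
        rw [hD]; simp only; rw [h1, F.apply_one, hf]
        rw [hgX _ (e.toFun x).2]; rfl)
      (fun y hy => by rw [hD'X _ _ hy, h0, F'.apply_zero]; rfl)
      (fun y hy => by
        rw [hD'X _ _ hy, h1, F'.apply_one, hf]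
        simp only
        rw [hgX y hy]; rfl) n
    exact ⟨LinearEquiv.ofBijective _ key⟩

end HE

/-! ### Geometric simplicial complexes -/

section Space

variable {V : Type*} [NormedAddCommGroup V] [NormedSpace ℝ V]

/-- Evaluation of barycentric coordinates. -/
noncomputable def bary {N : ℕ} (v : Fin N → V) (x : Fin N → ℝ) : V := ∑ i, x i • v i

theorem continuous_bary {N : ℕ} (v : Fin N → V) : Continuous (bary v) := by
  unfold bary
  exact continuous_finsetSum _ fun i _ => (continuous_apply i).smul continuous_const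

theorem bary_smp {N : ℕ} (v : Fin N → V) {I : Finset (Fin N)} {x : Fin N → ℝ} (hx : x ∈ smp I) :
    bary v x = ∑ i ∈ I, x i • v i := by
  unfold bary
  symm
  refine Finset.sum_subset (Finset.subset_univ _) fun i _ hi => ?_
  rw [hx.2 i hi, zero_smul]

theorem smp_sum {N : ℕ} {I : Finset (Fin N)} {x : Fin N → ℝ} (hx : x ∈ smp I) :
    ∑ i ∈ I, x i = 1 := by
  rw [← hx.1.2]
  exact Finset.sum_subset (Finset.subset_univ _) fun i _ hi => hx.2 i hi

theorem bary_mem_convexHull {N : ℕ} (v : Fin N → V) {I : Finset (Fin N)} {x : Fin N → ℝ}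
    (hx : x ∈ smp I) [DecidableEq V] :
    bary v x ∈ convexHull ℝ ((I.image v : Finset V) : Set V) := by
  rw [bary_smp v hx]
  refine (convex_convexHull ℝ _).sum_mem (fun i _ => hx.1.1 i) (smp_sum hx) fun i hi => ?_
  exact subset_convexHull ℝ _ (by simpa using ⟨i, hi, rfl⟩)

theorem exists_smp_of_mem {N : ℕ} {v : Fin N → V} (hv : Function.Injective v) [DecidableEq V]
    {I : Finset (Fin N)} {y : V} (hy : y ∈ convexHull ℝ ((I.image v : Finset V) : Set V)) :
    ∃ x ∈ smp I, bary v x = y := by
  rw [Finset.mem_convexHull'] at hy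
  obtain ⟨w, hw0, hw1, hwy⟩ := hy
  set x : Fin N → ℝ := fun i => if i ∈ I then w (v i) else 0 with hx
  have hxI : ∀ i ∈ I, x i = w (v i) := fun i hi => if_pos hi
  have hinj : Set.InjOn v (I : Set (Fin N)) := hv.injOn
  rw [Finset.sum_image hinj] at hw1 hwy
  have hsmp : x ∈ smp I := by
    refine ⟨⟨fun i => ?_, ?_⟩, fun i hi => if_neg hi⟩
    · by_cases hi : i ∈ I
      · rw [hxI i hi]
        exact hw0 _ (Finset.mem_image_of_mem v hi)
      · rw [hx]; simp [hi]
    · rw [← hw1, ← Finset.sum_congr rfl fun i hi => hxI i hi]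
      symm
      exact Finset.sum_subset (Finset.subset_univ _) fun i _ hi => if_neg hi
  refine ⟨x, hsmp, ?_⟩
  rw [bary_smp v hsmp, ← hwy]
  exact Finset.sum_congr rfl fun i hi => by rw [hxI i hi]

theorem bary_inj {N : ℕ} {v : Fin N → V} (hv : Function.Injective v) [DecidableEq V]
    {I : Finset (Fin N)}
    (hI : AffineIndependent ℝ ((↑) : ↥(I.image v) → V)) {x x' : Fin N → ℝ}
    (hx : x ∈ smp I) (hx' : x' ∈ smp I) (h : bary v x = bary v x') : x = x' := by
  have h2 : AffineIndependent ℝ (fun i : I => v i) := by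
    have := hI.comp_embedding (⟨fun i : I => ⟨v i, Finset.mem_image_of_mem v i.2⟩, fun a b hab =>
      Subtype.ext (hv (congrArg Subtype.val hab))⟩ : I ↪ ↥(I.image v))
    exact this
  rw [affineIndependent_iff] at h2
  have h3 := h2 Finset.univ (fun i => x i - x' i)
    (by
      rw [Finset.sum_sub_distrib, Finset.sum_coe_sort I x, Finset.sum_coe_sort I x', smp_sum hx,
        smp_sum hx', sub_self])
    (by
      simp only [sub_smul]
      rw [Finset.sum_sub_distrib, Finset.sum_coe_sort I (fun i => x i • v i),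
        Finset.sum_coe_sort I (fun i => x' i • v i), ← bary_smp v hx, ← bary_smp v hx', h,
        sub_self])
  funext i
  by_cases hi : i ∈ I
  · exact sub_eq_zero.1 (h3 ⟨i, hi⟩ (Finset.mem_univ _))
  · rw [hx.2 i hi, hx'.2 i hi]

/-- A finite geometric simplicial complex is homeomorphic to the standard model. -/
theorem exists_model (T : Geometry.SimplicialComplex ℝ V) (hT : T.faces.Finite) :
    ∃ (N : ℕ) (S : Finset (Finset (Fin N))), FC S ∧ eulerC S = eulerChar T hT ∧
      Nonempty (cpx S ≃ₜ T.space) := by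
  classical
  set V₀ : Finset V := hT.toFinset.biUnion id with hV₀
  have hsub : ∀ s ∈ T.faces, s ⊆ V₀ := fun s hs =>
    Finset.subset_biUnion_of_mem id (hT.mem_toFinset.2 hs)
  set v : Fin V₀.card → V := fun i => (V₀.equivFin.symm i : V) with hv
  have hinj : Function.Injective v := fun i j hij =>
    V₀.equivFin.symm.injective (Subtype.ext hij)
  have hrange : ∀ w ∈ V₀, ∃ i, v i = w := fun w hw =>
    ⟨V₀.equivFin ⟨w, hw⟩, by rw [hv]; simp⟩
  set S : Finset (Finset (Fin V₀.card)) :=
    Finset.univ.filter fun I => I = ∅ ∨ I.image v ∈ T.faces with hS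
  have memS : ∀ I, I ∈ S ↔ I = ∅ ∨ I.image v ∈ T.faces := fun I => by
    rw [hS, Finset.mem_filter]; simp
  -- faces come from index sets
  have hface : ∀ s ∈ T.faces, ∃ I : Finset (Fin V₀.card), I.image v = s := by
    intro s hs
    refine ⟨Finset.univ.filter fun i => v i ∈ s, ?_⟩
    ext w
    rw [Finset.mem_image]
    constructor
    · rintro ⟨i, hi, rfl⟩
      exact (Finset.mem_filter.1 hi).2
    · intro hw
      obtain ⟨i, rfl⟩ := hrange w (hsub s hs hw)
      exact ⟨i, Finset.mem_filter.2 ⟨Finset.mem_univ _, hw⟩, rfl⟩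
  have hFC : FC S := by
    intro I hI J hJ
    rw [memS] at hI ⊢
    rcases J.eq_empty_or_nonempty with h | h
    · exact Or.inl h
    · right
      rcases hI with hI | hI
      · rw [hI] at hJ
        exact absurd hJ (Finset.not_ssubset_empty J)
      · exact T.down_closed hI (Finset.image_subset_image hJ.subset) (h.image v)
  have hSne : ∀ I ∈ S, ∀ x ∈ smp I, I.image v ∈ T.faces := by
    intro I hI x hx
    rcases (memS I).1 hI with h | h
    · subst h
      have := smp_sum hx
      rw [Finset.sum_empty] at this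
      exact absurd this zero_ne_one
    · exact h
  refine ⟨V₀.card, S, hFC, ?_, ?_⟩
  · unfold eulerC eulerChar
    refine Finset.sum_bij (fun I _ => I.image v) (fun I hI => ?_) (fun I _ J _ hIJ => ?_)
      (fun s hs => ?_) (fun I hI => ?_)
    · obtain ⟨h1, h2⟩ := Finset.mem_erase.1 hI
      rw [hT.mem_toFinset]
      exact ((memS I).1 h2).resolve_left h1
    · exact Finset.image_injective hinj hIJ
    · rw [hT.mem_toFinset] at hs
      obtain ⟨I, rfl⟩ := hface s hs
      refine ⟨I, Finset.mem_erase.2 ⟨?_, (memS I).2 (Or.inr hs)⟩, rfl⟩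
      rintro rfl
      exact T.empty_notMem (by simpa using hs)
    · obtain ⟨h1, -⟩ := Finset.mem_erase.1 hI
      rw [Finset.card_image_of_injective _ hinj]
      obtain ⟨c, hc⟩ : ∃ c, I.card = c + 1 := by
        have := Finset.card_pos.2 (Finset.nonempty_iff_ne_empty.2 h1)
        exact ⟨I.card - 1, by omega⟩
      rw [hc, Nat.add_sub_cancel, pow_succ, pow_succ]
      ring
  · have hmaps : ∀ x ∈ cpx S, bary v x ∈ T.space := by
      rintro x ⟨I, hI, hx⟩
      exact T.mem_space_iff.2 ⟨_, hSne I hI x hx, bary_mem_convexHull v hx⟩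
    set F : cpx S → T.space := fun x => ⟨bary v x.1, hmaps x.1 x.2⟩ with hF
    have hFinj : Function.Injective F := by
      rintro ⟨x, hx⟩ ⟨x', hx'⟩ h
      have hb : bary v x = bary v x' := congrArg Subtype.val h
      obtain ⟨I, hI, hxI⟩ := hx
      obtain ⟨I', hI', hxI'⟩ := hx'
      have f1 := hSne I hI x hxI
      have f2 := hSne I' hI' x' hxI'
      have f3 := T.inter_subset_convexHull f1 f2
        ⟨bary_mem_convexHull v hxI, hb ▸ bary_mem_convexHull v hxI'⟩
      rw [← Finset.coe_inter, ← Finset.image_inter _ _ hinj] at f3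
      obtain ⟨y, hy, hyx⟩ := exists_smp_of_mem hinj f3
      have hyI : y ∈ smp I := ⟨hy.1, fun i hi => hy.2 i fun h => hi (Finset.mem_inter.1 h).1⟩
      have hyI' : y ∈ smp I' := ⟨hy.1, fun i hi => hy.2 i fun h => hi (Finset.mem_inter.1 h).2⟩
      have g1 := bary_inj hinj (T.indep f1) hxI hyI hyx.symm
      have g2 := bary_inj hinj (T.indep f2) hxI' hyI' (hb.symm.trans hyx.symm)
      exact Subtype.ext (g1.trans g2.symm)
    have hFsurj : Function.Surjective F := by
      rintro ⟨y, hy⟩
      obtain ⟨s, hs, hys⟩ := T.mem_space_iff.1 hy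
      obtain ⟨I, rfl⟩ := hface s hs
      obtain ⟨x, hx, hxy⟩ := exists_smp_of_mem hinj hys
      exact ⟨⟨x, I, (memS I).2 (Or.inr hs), hx⟩, Subtype.ext hxy⟩
    have hFc : Continuous F :=
      Continuous.subtype_mk ((continuous_bary v).comp continuous_subtype_val) _
    have : CompactSpace (cpx S) := isCompact_iff_compactSpace.1 (isCompact_cpx S)
    exact ⟨Continuous.homeoOfEquivCompactToT2 (f := Equiv.ofBijective F ⟨hFinj, hFsurj⟩) hFc⟩

/-- **The Euler characteristic of a compact space homotopy equivalent to a finite simplicial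
complex**, for all fields. -/
theorem euler_space {M : Type} [PseudoMetricSpace M] [CompactSpace M]
    (T : Geometry.SimplicialComplex ℝ V) (hT : T.faces.Finite)
    (e : ContinuousMap.HomotopyEquiv M T.space) (k : Type) [Field k] :
    (∀ n, Module.Finite k (Hs k (univ : Set M) n)) ∧ ∃ m₀, ∀ m, m₀ ≤ m →
      ∑ n ∈ Finset.range m, (-1 : ℤ) ^ n * (Module.finrank k (Hs k (univ : Set M) n) : ℤ) =
        eulerChar T hT := by
  obtain ⟨N, S, hS, hE, ⟨φ⟩⟩ := exists_model T hT
  have key : ∀ n, Nonempty (Hs k (cpx S) n ≃ₗ[k] Hs k (univ : Set M) n) := fun n =>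
    nonempty_equiv_of_homotopyEquiv (isCompact_cpx S) (e.trans φ.symm.toHomotopyEquiv) n
  have hfr : ∀ n, Module.finrank k (Hs k (univ : Set M) n) =
      Module.finrank k (Hs k (cpx S) n) := fun n => (key n).some.finrank_eq.symm
  refine ⟨fun n => ?_, N + 1, fun m hm => ?_⟩
  · have := (finite_cpx (k := k) hS n).1
    exact Module.Finite.equiv (key n).some
  · obtain ⟨m, rfl⟩ : ∃ m', m = m' + 1 := ⟨m - 1, by omega⟩
    rw [← hE, ← euler_cpx (k := k) _ S hS rfl m (by omega)]
    exact Finset.sum_congr rfl fun n _ => by rw [hfr n]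

end Space

end Vale.Agent.P216.H41
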