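import Vale.Agent.P216.H41.Fin3

/-!
# Thick Mayer-Vietoris, rank form (P216)

For fixed `Q ⊆ P` the pair attached to a set `N` is `(N ∩ P, N ∩ Q)`. For nested sets
`A ⊆ A₁ ⊆ A₂ ⊆ A₃`, `B ⊆ B₁ ⊆ B₂ ⊆ B₃` with some room between `A` and `A₁`, `B` and `B₁`:
`rk (A₃ ∪ B₃ → A ∪ B) ≤ rk (A₃ → A₂) + rk (B₃ → B₂) + rk (A₂ ∩ B₂ → A₁ ∩ B₁)[-1]`.
-/

open Set Finset Matrix

namespace Vale.Agent.P216.H41

open Vale.Agent.P265.AS

section Alg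

variable {k : Type} [Field k] {F : Type} [AddCommGroup F] [Module k F]

theorem qr_mono {Z Z' B B' : Submodule k F} (h : Z ≤ Z') (h' : B' ≤ B) : qr Z B ≤ qr Z' B' :=
  qr_le_of_inj LinearMap.id (fun _ hc => h hc) fun _ _ hc => h' hc

theorem qr_split (Z B B₁ : Submodule k F) : qr Z B ≤ qr Z B₁ + qr (Z ⊓ B₁) B := by
  refine (qr_mono le_rfl inf_le_left).trans
    (qr_le_add (Z := Z) (B := B ⊓ B₁) (Z₁ := Z) (B₁ := B₁) (Z₂ := Z ⊓ B₁) (B₂ := B) le_rfl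
      inf_le_right inf_le_left (fun c hc => ⟨hc.2, hc.1.2⟩) ?_)
  intro c hc hc1
  exact ⟨c, ⟨hc, hc1⟩, by rw [sub_self]; exact Submodule.zero_mem _⟩

end Alg

section Cut

variable {E k : Type} [Field k]

/-- multiplication by the indicator of `x 0 ∈ A` (zero on functions of no variable) -/
noncomputable def cut (A : Set E) {n : ℕ} (c : (Fin n → E) → k) : (Fin n → E) → k := by
  classical
  exact fun y => if h : 0 < n then (if y ⟨0, h⟩ ∈ A then c y else 0) else 0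

theorem cut_of_mem {A : Set E} {n : ℕ} {c : (Fin n → E) → k} {y : Fin n → E} (h : 0 < n)
    (hy : y ⟨0, h⟩ ∈ A) : cut A c y = c y := by
  classical
  unfold cut
  rw [dif_pos h, if_pos hy]

theorem cut_of_notMem {A : Set E} {n : ℕ} {c : (Fin n → E) → k} {y : Fin n → E} (h : 0 < n)
    (hy : y ⟨0, h⟩ ∉ A) : cut A c y = 0 := by
  classical
  unfold cut
  rw [dif_pos h, if_neg hy]

theorem cut_zero_deg {A : Set E} {c : (Fin 0 → E) → k} {y : Fin 0 → E} : cut A c y = 0 := by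
  classical
  unfold cut
  rw [dif_neg (lt_irrefl 0)]

theorem cut_eq_zero {A : Set E} {n : ℕ} {c : (Fin n → E) → k} {y : Fin n → E} (hy : c y = 0) :
    cut A c y = 0 := by
  classical
  unfold cut
  split_ifs <;> simp [hy]

theorem cut_congr {A : Set E} {n : ℕ} {c c' : (Fin n → E) → k} {y : Fin n → E}
    (hy : c y = c' y) : cut A c y = cut A c' y := by
  classical
  unfold cut
  rw [hy]

theorem cut_add {A : Set E} {n : ℕ} (c c' : (Fin n → E) → k) :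
    cut A (c + c') = cut A c + cut A c' := by
  classical
  funext y
  simp only [cut, Pi.add_apply]
  split_ifs <;> simp

theorem cut_smul {A : Set E} {n : ℕ} (a : k) (c : (Fin n → E) → k) :
    cut A (a • c) = a • cut A c := by
  classical
  funext y
  simp only [cut, Pi.smul_apply]
  split_ifs <;> simp

theorem cut_eqv {A X : Set E} {g : E → E} (hg : Inv g A) {χ : k} {n : ℕ} {c : (Fin n → E) → k}
    (hc : Eqv g χ X c) : Eqv g χ X (cut A c) := by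
  classical
  intro y hy
  unfold cut
  by_cases hn : 0 < n
  · rw [dif_pos hn, dif_pos hn]
    have : (g ∘ y) ⟨0, hn⟩ ∈ A ↔ y ⟨0, hn⟩ ∈ A := hg _
    by_cases h0 : y ⟨0, hn⟩ ∈ A
    · rw [if_pos (this.2 h0), if_pos h0, hc y hy]
    · rw [if_neg (fun h => h0 (this.1 h)), if_neg h0, mul_zero]
  · rw [dif_neg hn, dif_neg hn, mul_zero]

/-- some entries in `A`, some not -/
def Mixed (A : Set E) {n : ℕ} (x : Fin n → E) : Prop := (∃ i, x i ∈ A) ∧ ∃ j, x j ∉ A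

theorem not_mixed {A : Set E} {n : ℕ} {x : Fin n → E} (h : ¬ Mixed A x) :
    (∀ i, x i ∈ A) ∨ ∀ i, x i ∉ A := by
  by_cases h1 : ∃ i, x i ∈ A
  · refine Or.inl fun i => ?_
    by_contra h2
    exact h ⟨h1, i, h2⟩
  · exact Or.inr fun i hi => h1 ⟨i, hi⟩

theorem mixed_comp {A : Set E} {g : E → E} (hg : Inv g A) {n : ℕ} {x : Fin n → E} :
    Mixed A (g ∘ x) ↔ Mixed A x := by
  unfold Mixed
  constructor
  · rintro ⟨⟨i, hi⟩, j, hj⟩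
    exact ⟨⟨i, (hg _).1 hi⟩, j, fun h => hj ((hg _).2 h)⟩
  · rintro ⟨⟨i, hi⟩, j, hj⟩
    exact ⟨⟨i, (hg _).2 hi⟩, j, fun h => hj ((hg _).1 h)⟩

theorem Mixed.sub {A : Set E} {m n : ℕ} {x : Fin n → E} {y : Fin m → E} (hy : Sub y x)
    (h : Mixed A y) : Mixed A x := by
  obtain ⟨⟨i, hi⟩, j, hj⟩ := h
  obtain ⟨i', hi'⟩ := hy i
  obtain ⟨j', hj'⟩ := hy j
  exact ⟨⟨i', hi' ▸ hi⟩, j', hj' ▸ hj⟩

/-- restriction to mixed tuples -/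
noncomputable def mix (A : Set E) {n : ℕ} (c : (Fin n → E) → k) : (Fin n → E) → k := by
  classical
  exact fun y => if Mixed A y then c y else 0

theorem mix_pos {A : Set E} {n : ℕ} {c : (Fin n → E) → k} {y : Fin n → E} (h : Mixed A y) :
    mix A c y = c y := by
  classical
  unfold mix
  rw [if_pos h]

theorem mix_neg {A : Set E} {n : ℕ} {c : (Fin n → E) → k} {y : Fin n → E} (h : ¬ Mixed A y) :
    mix A c y = 0 := by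
  classical
  unfold mix
  rw [if_neg h]

/-- The connecting map of Mayer-Vietoris on representatives. -/
noncomputable def conn (A : Set E) (n : ℕ) :
    ((Fin n → E) → k) →ₗ[k] ((Fin (n + 1) → E) → k) where
  toFun v := mix A (d (cut A v))
  map_add' v w := by
    classical
    funext x
    simp only [mix, Pi.add_apply]
    rw [cut_add, d_add]
    split_ifs <;> simp
  map_smul' a v := by
    classical
    funext x
    simp only [mix, Pi.smul_apply, RingHom.id_apply]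
    rw [cut_smul, d_smul]
    split_ifs <;> simp

theorem conn_apply (A : Set E) {n : ℕ} (v : (Fin n → E) → k) :
    conn A n v = mix A (d (cut A v)) := rfl

end Cut

section MV

variable {E : Type} [PseudoMetricSpace E] {k : Type} [Field k] {g : E → E} {P Q : Set E}
  {A A₁ A₂ A₃ B B₁ B₂ B₃ : Set E} {δ : ℝ}

theorem inv_inter {X Y : Set E} (hX : Inv g X) (hY : Inv g Y) : Inv g (X ∩ Y) := fun x => by
  rw [Set.mem_inter_iff, Set.mem_inter_iff, hX x, hY x]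

/-- small mixed tuples lie in `A₁ ∩ B₁` -/
theorem mixed_mem (hA : ∀ x ∈ A ∩ P, ∀ y ∈ (A ∪ B) ∩ P, dist x y < δ → y ∈ A₁)
    (hB : ∀ x ∈ B ∩ P, ∀ y ∈ (A ∪ B) ∩ P, dist x y < δ → y ∈ B₁) {n : ℕ} {x : Fin n → E}
    (hx : Sm ((A ∪ B) ∩ P) δ x) (hm : Mixed A x) : ∀ i, x i ∈ A₁ ∩ B₁ := by
  obtain ⟨⟨i, hi⟩, j, hj⟩ := hm
  intro l
  refine ⟨hA _ ⟨hi, (hx.1 i).2⟩ _ (hx.1 l) (hx.2 i l), hB (x j) ⟨?_, (hx.1 j).2⟩ _ (hx.1 l)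
    (hx.2 j l)⟩
  exact (hx.1 j).1.resolve_left hj

variable (hQP : Q ⊆ P) (hδ : 0 < δ) (gA : Inv g A) (gA₁ : Inv g A₁) (gA₂ : Inv g A₂)
  (gB₁ : Inv g B₁) (gB₂ : Inv g B₂) (gP : Inv g P)
  (hA : ∀ x ∈ A ∩ P, ∀ y ∈ (A ∪ B) ∩ P, dist x y < δ → y ∈ A₁)
  (hB : ∀ x ∈ B ∩ P, ∀ y ∈ (A ∪ B) ∩ P, dist x y < δ → y ∈ B₁)
  (hA₁ : A₁ ⊆ A₂) (hB₁ : B₁ ⊆ B₂) (hAA₂ : A ⊆ A₂) (hBB₂ : B ⊆ B₂)

include hQP hδ gA₂ gB₂ gP gA hA hB hA₁ hB₁ hAA₂ hBB₂ in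
/-- Claim 1. -/
theorem mv_claim1 {χ : k} {q : ℕ} {c : (Fin (q + 2) → E) → k}
    (h1 : c ∈ Bs g χ (A₂ ∩ P) (A₂ ∩ Q) (q + 1)) (h2 : c ∈ Bs g χ (B₂ ∩ P) (B₂ ∩ Q) (q + 1)) :
    ∃ z ∈ Zs g χ (A₂ ∩ B₂ ∩ P) (A₂ ∩ B₂ ∩ Q) q,
      c - conn A (q + 1) z ∈ Bs g χ ((A ∪ B) ∩ P) ((A ∪ B) ∩ Q) (q + 1) := by
  classical
  obtain ⟨b₁, hb₁, ε₁, hε₁, h11, h12⟩ := h1
  obtain ⟨b₂, hb₂, ε₂, hε₂, h21, h22⟩ := h2
  set f₁ := rs k (A₂ ∩ P) (q + 1) b₁ with hf₁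
  set f₂ := rs k (B₂ ∩ P) (q + 1) b₂ with hf₂
  have ef₁ : ∀ X, Eqv g χ X f₁ := fun X => rs_eqv (inv_inter gA₂ gP) hb₁
  have ef₂ : ∀ X, Eqv g χ X f₂ := fun X => rs_eqv (inv_inter gB₂ gP) hb₂
  have df₁ : ∀ x, Sm (A₂ ∩ P) ε₁ x → d f₁ x = c x := fun x hx => by
    rw [hf₁, d_rs hx.1, h11 x hx]
  have df₂ : ∀ x, Sm (B₂ ∩ P) ε₂ x → d f₂ x = c x := fun x hx => by
    rw [hf₂, d_rs hx.1, h21 x hx]
  have zf₁ : ∀ x, Sm (A₂ ∩ Q) ε₁ x → f₁ x = 0 := fun x hx => by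
    rw [hf₁, rs_of_mem (Y := A₂ ∩ P) fun i => ⟨(hx.1 i).1, hQP (hx.1 i).2⟩, h12 x hx]
  have zf₂ : ∀ x, Sm (B₂ ∩ Q) ε₂ x → f₂ x = 0 := fun x hx => by
    rw [hf₂, rs_of_mem (Y := B₂ ∩ P) fun i => ⟨(hx.1 i).1, hQP (hx.1 i).2⟩, h22 x hx]
  set ε := min δ (min ε₁ ε₂) with hε
  have hεpos : 0 < ε := lt_min hδ (lt_min hε₁ hε₂)
  have hεδ : ε ≤ δ := min_le_left _ _
  have hεε₁ : ε ≤ ε₁ := (min_le_right _ _).trans (min_le_left _ _)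
  have hεε₂ : ε ≤ ε₂ := (min_le_right _ _).trans (min_le_right _ _)
  refine ⟨f₂ - f₁, ⟨(ef₂ _).sub (ef₁ _), ε, hεpos, fun x hx => ?_, fun x hx => ?_⟩, ?_⟩
  · rw [d_sub, Pi.sub_apply, df₁ x ⟨fun i => ⟨(hx.1 i).1.1, (hx.1 i).2⟩,
      fun i j => (hx.2 i j).trans_le hεε₁⟩, df₂ x ⟨fun i => ⟨(hx.1 i).1.2, (hx.1 i).2⟩,
      fun i j => (hx.2 i j).trans_le hεε₂⟩, sub_self]
  · rw [Pi.sub_apply, zf₁ x ⟨fun i => ⟨(hx.1 i).1.1, (hx.1 i).2⟩,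
      fun i j => (hx.2 i j).trans_le hεε₁⟩, zf₂ x ⟨fun i => ⟨(hx.1 i).1.2, (hx.1 i).2⟩,
      fun i j => (hx.2 i j).trans_le hεε₂⟩, sub_self]
  · -- the primitive
    set h : (Fin (q + 1) → E) → k := f₂ - cut A (f₂ - f₁) with hh
    have hpos : 0 < q + 1 := Nat.succ_pos q
    have hin : ∀ y : Fin (q + 1) → E, y 0 ∈ A → h y = f₁ y := by
      intro y hy
      rw [hh, Pi.sub_apply, cut_of_mem hpos hy, Pi.sub_apply]
      ring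
    have hout : ∀ y : Fin (q + 1) → E, y 0 ∉ A → h y = f₂ y := by
      intro y hy
      rw [hh, Pi.sub_apply, cut_of_notMem hpos hy, sub_zero]
    refine ⟨h, (ef₂ _).sub (cut_eqv gA ((ef₂ _).sub (ef₁ _))), ε, hεpos, fun x hx => ?_,
      fun y hy => ?_⟩
    · rw [Pi.sub_apply, conn_apply]
      by_cases hm : Mixed A x
      · have hmem := mixed_mem hA hB (hx.mono le_rfl hεδ) hm
        rw [mix_pos hm, hh, d_sub, Pi.sub_apply, df₂ x ⟨fun i => ⟨hB₁ (hmem i).2, (hx.1 i).2⟩,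
          fun i j => (hx.2 i j).trans_le hεε₂⟩]
      · rw [mix_neg hm, sub_zero]
        rcases not_mixed hm with hm | hm
        · rw [d_congr (c' := f₁) fun y hy => hin y (by
            obtain ⟨j, hj⟩ := hy 0
            rw [hj]; exact hm j)]
          exact (df₁ x ⟨fun i => ⟨hAA₂ (hm i), (hx.1 i).2⟩,
            fun i j => (hx.2 i j).trans_le hεε₁⟩).symm
        · rw [d_congr (c' := f₂) fun y hy => hout y (by
            obtain ⟨j, hj⟩ := hy 0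
            rw [hj]; exact hm j)]
          exact (df₂ x ⟨fun i => ⟨hBB₂ ((hx.1 i).1.resolve_left (hm i)), (hx.1 i).2⟩,
            fun i j => (hx.2 i j).trans_le hεε₂⟩).symm
    · by_cases h0 : y 0 ∈ A
      · rw [hin y h0]
        refine zf₁ y ⟨fun i => ⟨hA₁ (hA (y 0) ⟨h0, hQP (hy.1 0).2⟩ (y i)
          ⟨(hy.1 i).1, hQP (hy.1 i).2⟩ ((hy.2 0 i).trans_le hεδ)), (hy.1 i).2⟩,
          fun i j => (hy.2 i j).trans_le hεε₁⟩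
      · rw [hout y h0]
        refine zf₂ y ⟨fun i => ⟨hB₁ (hB (y 0) ⟨(hy.1 0).1.resolve_left h0, hQP (hy.1 0).2⟩ (y i)
          ⟨(hy.1 i).1, hQP (hy.1 i).2⟩ ((hy.2 0 i).trans_le hεδ)), (hy.1 i).2⟩,
          fun i j => (hy.2 i j).trans_le hεε₂⟩

include hQP hδ gA₁ gA₂ gB₁ gB₂ gP gA hA hB hA₁ hB₁ in
/-- Claim 2. -/
theorem mv_claim2 {χ : k} {q : ℕ} {v : (Fin (q + 1) → E) → k}
    (h1 : v ∈ Zs g χ (A₂ ∩ B₂ ∩ P) (A₂ ∩ B₂ ∩ Q) q)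
    (h2 : v ∈ Bs g χ (A₁ ∩ B₁ ∩ P) (A₁ ∩ B₁ ∩ Q) q) :
    conn A (q + 1) v ∈ Bs g χ ((A ∪ B) ∩ P) ((A ∪ B) ∩ Q) (q + 1) := by
  classical
  obtain ⟨hv, ε₁, hε₁, h11, h12⟩ := h1
  obtain ⟨w, hw, ε₂, hε₂, h21, h22⟩ := h2
  set v' := rs k (A₂ ∩ B₂ ∩ P) (q + 1) v with hv'
  set w' := rs k (A₁ ∩ B₁ ∩ P) q w with hw'
  have ev' : ∀ X, Eqv g χ X v' := fun X => rs_eqv (inv_inter (inv_inter gA₂ gB₂) gP) hv
  have ew' : ∀ X, Eqv g χ X w' := fun X => rs_eqv (inv_inter (inv_inter gA₁ gB₁) gP) hw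
  set ε := min δ (min ε₁ ε₂) with hε
  have hεpos : 0 < ε := lt_min hδ (lt_min hε₁ hε₂)
  have hεδ : ε ≤ δ := min_le_left _ _
  have hεε₁ : ε ≤ ε₁ := (min_le_right _ _).trans (min_le_left _ _)
  have hεε₂ : ε ≤ ε₂ := (min_le_right _ _).trans (min_le_right _ _)
  set u₀ : (Fin (q + 1) → E) → k := cut A v' - d (cut A w') with hu₀
  have hu₀eqv : ∀ X, Eqv g χ X u₀ := fun X =>
    (cut_eqv gA (ev' X)).sub (cut_eqv gA (ew' X)).d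
  have hpos : 0 < q + 1 := Nat.succ_pos q
  -- values on pure tuples
  have hpure : ∀ y : Fin (q + 1) → E, Sm (A₁ ∩ B₁ ∩ P) ε y → ¬ Mixed A y → u₀ y = 0 := by
    intro y hy hm
    have e1 : v' y = v y := rs_of_mem (Y := A₂ ∩ B₂ ∩ P)
      fun i => ⟨⟨hA₁ (hy.1 i).1.1, hB₁ (hy.1 i).1.2⟩, (hy.1 i).2⟩
    have e2 : v y = d w y := h21 y (hy.mono le_rfl hεε₂)
    have e3 : d w y = d w' y := (d_rs hy.1).symm
    rw [hu₀, Pi.sub_apply]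
    rcases not_mixed hm with hm | hm
    · rw [cut_of_mem hpos (hm _), e1, e2, e3]
      cases q with
      | zero =>
        have hw0 : ∀ z : Fin 0 → E, w z = 0 := fun z =>
          h22 z ⟨fun i => i.elim0, fun i => i.elim0⟩
        have : ∀ z : Fin 0 → E, w' z = 0 := fun z => by
          rw [hw', rs_of_mem (Y := A₁ ∩ B₁ ∩ P) (fun i => i.elim0), hw0]
        rw [d_eq_zero fun z _ => this z, d_eq_zero fun z _ => cut_eq_zero (this z), sub_self]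
      | succ q =>
        rw [d_congr (c := cut A w') (c' := w') fun z hz => cut_of_mem (Nat.succ_pos q) (by
          obtain ⟨j, hj⟩ := hz ⟨0, Nat.succ_pos q⟩
          rw [hj]; exact hm j), sub_self]
    · rw [cut_of_notMem hpos (hm _), zero_sub, neg_eq_zero]
      refine d_eq_zero fun z hz => ?_
      cases q with
      | zero => exact cut_zero_deg
      | succ q =>
        refine cut_of_notMem (Nat.succ_pos q) ?_
        obtain ⟨j, hj⟩ := hz ⟨0, Nat.succ_pos q⟩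
        rw [hj]; exact hm j
  refine ⟨mix A u₀, ?_, ε, hεpos, fun x hx => ?_, fun y hy => ?_⟩
  · intro y hy
    by_cases hm : Mixed A y
    · rw [mix_pos hm, mix_pos ((mixed_comp gA).2 hm), hu₀eqv _ y hy]
    · rw [mix_neg hm, mix_neg (fun h => hm ((mixed_comp gA).1 h)), mul_zero]
  · rw [conn_apply]
    by_cases hm : Mixed A x
    · have hmem := mixed_mem hA hB (hx.mono le_rfl hεδ) hm
      have hxs : Sm (A₁ ∩ B₁ ∩ P) ε x := ⟨fun i => ⟨hmem i, (hx.1 i).2⟩, hx.2⟩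
      have e1 : d (mix A u₀) x = d u₀ x := by
        refine d_congr fun y hy => ?_
        by_cases hmy : Mixed A y
        · rw [mix_pos hmy]
        · rw [mix_neg hmy, hpure y (hxs.sub hy) hmy]
      rw [e1, mix_pos hm, hu₀, d_sub, d_d, sub_zero]
      refine d_congr fun y hy => cut_congr ?_
      have hys := hxs.sub hy
      exact (rs_of_mem (Y := A₂ ∩ B₂ ∩ P)
        fun i => ⟨⟨hA₁ (hys.1 i).1.1, hB₁ (hys.1 i).1.2⟩, (hys.1 i).2⟩).symm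
    · rw [mix_neg hm]
      symm
      refine d_eq_zero fun y hy => mix_neg fun h => hm (h.sub hy)
  · by_cases hm : Mixed A y
    · have hyP : Sm ((A ∪ B) ∩ P) δ y :=
        ⟨fun i => ⟨(hy.1 i).1, hQP (hy.1 i).2⟩, fun i j => (hy.2 i j).trans_le hεδ⟩
      have hmem := mixed_mem hA hB hyP hm
      rw [mix_pos hm, hu₀, Pi.sub_apply]
      have e1 : v' y = 0 := by
        rw [hv', rs_of_mem (Y := A₂ ∩ B₂ ∩ P)
          fun i => ⟨⟨hA₁ (hmem i).1, hB₁ (hmem i).2⟩, hQP (hy.1 i).2⟩]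
        exact h12 y ⟨fun i => ⟨⟨hA₁ (hmem i).1, hB₁ (hmem i).2⟩, (hy.1 i).2⟩,
          fun i j => (hy.2 i j).trans_le hεε₁⟩
      have e2 : ∀ z : Fin q → E, Sub z y → w' z = 0 := by
        intro z hz
        have hz' : ∀ i, z i ∈ A₁ ∩ B₁ ∩ Q := fun i => by
          obtain ⟨j, hj⟩ := hz i
          rw [hj]; exact ⟨hmem j, (hy.1 j).2⟩
        rw [hw', rs_of_mem (Y := A₁ ∩ B₁ ∩ P) fun i => ⟨(hz' i).1, hQP (hz' i).2⟩]
        refine h22 z ⟨hz', fun i j => ?_⟩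
        obtain ⟨i', hi'⟩ := hz i
        obtain ⟨j', hj'⟩ := hz j
        rw [hi', hj']
        exact (hy.2 i' j').trans_le hεε₂
      rw [cut_eq_zero e1, d_eq_zero fun z hz => cut_eq_zero (e2 z hz), sub_self]
    · exact mix_neg hm

include hQP hδ gA₁ gA₂ gB₁ gB₂ gP gA hA hB hA₁ hB₁ hAA₂ hBB₂ in
/-- **Thick Mayer-Vietoris, rank form**, positive degrees. -/
theorem rk_mv (χ : k) (q : ℕ) :
    rk g χ ((A₃ ∪ B₃) ∩ P) ((A₃ ∪ B₃) ∩ Q) ((A ∪ B) ∩ P) ((A ∪ B) ∩ Q) (q + 1) ≤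
      rk g χ (A₃ ∩ P) (A₃ ∩ Q) (A₂ ∩ P) (A₂ ∩ Q) (q + 1) +
      rk g χ (B₃ ∩ P) (B₃ ∩ Q) (B₂ ∩ P) (B₂ ∩ Q) (q + 1) +
      rk g χ (A₂ ∩ B₂ ∩ P) (A₂ ∩ B₂ ∩ Q) (A₁ ∩ B₁ ∩ P) (A₁ ∩ B₁ ∩ Q) q := by
  set Z := Zs g χ ((A₃ ∪ B₃) ∩ P) ((A₃ ∪ B₃) ∩ Q) (q + 1)
  set B0 := Bs g χ ((A ∪ B) ∩ P) ((A ∪ B) ∩ Q) (q + 1)
  set BA := Bs g χ (A₂ ∩ P) (A₂ ∩ Q) (q + 1)
  set BB := Bs g χ (B₂ ∩ P) (B₂ ∩ Q) (q + 1)
  have s1 : qr Z BA ≤ rk g χ (A₃ ∩ P) (A₃ ∩ Q) (A₂ ∩ P) (A₂ ∩ Q) (q + 1) :=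
    qr_mono (Zs_restrict (Set.inter_subset_inter_left _ Set.subset_union_left)
      (Set.inter_subset_inter_left _ Set.subset_union_left)) le_rfl
  have s2 : qr (Z ⊓ BA) BB ≤ rk g χ (B₃ ∩ P) (B₃ ∩ Q) (B₂ ∩ P) (B₂ ∩ Q) (q + 1) :=
    qr_mono (inf_le_left.trans
      (Zs_restrict (Set.inter_subset_inter_left _ Set.subset_union_right)
      (Set.inter_subset_inter_left _ Set.subset_union_right))) le_rfl
  have s3 : qr (Z ⊓ BA ⊓ BB) B0 ≤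
      rk g χ (A₂ ∩ B₂ ∩ P) (A₂ ∩ B₂ ∩ Q) (A₁ ∩ B₁ ∩ P) (A₁ ∩ B₁ ∩ Q) q := by
    set Z2 := Zs g χ (A₂ ∩ B₂ ∩ P) (A₂ ∩ B₂ ∩ Q) q
    refine (qr_mono (Z' := (Z ⊓ BA ⊓ BB) ⊔ Z2.map (conn A (q + 1))) le_sup_left le_rfl).trans ?_
    refine qr_le_of_surj (conn A (q + 1)) ?_ ?_ ?_
    · intro c hc
      exact Submodule.mem_sup_right ⟨c, hc, rfl⟩
    · intro v hv hv'
      exact mv_claim2 hQP hδ gA gA₁ gA₂ gB₁ gB₂ gP hA hB hA₁ hB₁ hv hv'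
    · intro c hc
      obtain ⟨c₁, hc₁, c₂, ⟨z', hz', rfl⟩, rfl⟩ := Submodule.mem_sup.1 hc
      obtain ⟨z, hz, hcz⟩ := mv_claim1 hQP hδ gA gA₂ gB₂ gP hA hB hA₁ hB₁ hAA₂ hBB₂ hc₁.1.2 hc₁.2
      refine ⟨z + z', Submodule.add_mem _ hz hz', ?_⟩
      rw [map_add, add_sub_add_right_eq_sub]
      exact hcz
  calc rk g χ ((A₃ ∪ B₃) ∩ P) ((A₃ ∪ B₃) ∩ Q) ((A ∪ B) ∩ P) ((A ∪ B) ∩ Q) (q + 1)
      ≤ qr Z BA + qr (Z ⊓ BA) B0 := qr_split Z B0 BA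
    _ ≤ qr Z BA + (qr (Z ⊓ BA) BB + qr (Z ⊓ BA ⊓ BB) B0) :=
        add_le_add le_rfl (qr_split (Z ⊓ BA) B0 BB)
    _ ≤ _ := by
        rw [← add_assoc]
        exact add_le_add (add_le_add s1 s2) s3

include hQP hδ hA hB hA₁ hB₁ hAA₂ hBB₂ in
/-- **Thick Mayer-Vietoris, rank form**, degree zero. -/
theorem rk_mv_zero (χ : k) :
    rk g χ ((A₃ ∪ B₃) ∩ P) ((A₃ ∪ B₃) ∩ Q) ((A ∪ B) ∩ P) ((A ∪ B) ∩ Q) 0 ≤
      rk g χ (A₃ ∩ P) (A₃ ∩ Q) (A₂ ∩ P) (A₂ ∩ Q) 0 +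
      rk g χ (B₃ ∩ P) (B₃ ∩ Q) (B₂ ∩ P) (B₂ ∩ Q) 0 := by
  set Z := Zs g χ ((A₃ ∪ B₃) ∩ P) ((A₃ ∪ B₃) ∩ Q) 0
  set B0 := Bs g χ ((A ∪ B) ∩ P) ((A ∪ B) ∩ Q) 0
  set BA := Bs g χ (A₂ ∩ P) (A₂ ∩ Q) 0
  set BB := Bs g χ (B₂ ∩ P) (B₂ ∩ Q) 0
  have s1 : qr Z BA ≤ rk g χ (A₃ ∩ P) (A₃ ∩ Q) (A₂ ∩ P) (A₂ ∩ Q) 0 :=
    qr_mono (Zs_restrict (Set.inter_subset_inter_left _ Set.subset_union_left)
      (Set.inter_subset_inter_left _ Set.subset_union_left)) le_rfl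
  have s2 : qr (Z ⊓ BA) BB ≤ rk g χ (B₃ ∩ P) (B₃ ∩ Q) (B₂ ∩ P) (B₂ ∩ Q) 0 :=
    qr_mono (inf_le_left.trans
      (Zs_restrict (Set.inter_subset_inter_left _ Set.subset_union_right)
      (Set.inter_subset_inter_left _ Set.subset_union_right))) le_rfl
  have s3 : qr (Z ⊓ BA ⊓ BB) B0 = 0 := by
    rw [qr_eq_zero_iff]
    rintro c ⟨⟨-, h1⟩, h2⟩
    obtain ⟨b₁, -, ε₁, hε₁, h11, h12⟩ := h1
    obtain ⟨b₂, -, ε₂, hε₂, h21, h22⟩ := h2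
    have z1 : ∀ z : Fin 0 → E, b₁ z = 0 := fun z => h12 z ⟨fun i => i.elim0, fun i => i.elim0⟩
    have z2 : ∀ z : Fin 0 → E, b₂ z = 0 := fun z => h22 z ⟨fun i => i.elim0, fun i => i.elim0⟩
    refine ⟨0, fun x _ => by simp, 1, one_pos, fun x hx => ?_, fun _ _ => rfl⟩
    rw [d_zero, Pi.zero_apply]
    have hi0 : ∀ i : Fin (0 + 1), i = 0 := fun i => Fin.ext (by omega)
    rcases (hx.1 0).1 with h | h
    · have hx' : Sm (A₂ ∩ P) ε₁ x := ⟨fun i => by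
        rw [hi0 i]; exact ⟨hAA₂ h, (hx.1 0).2⟩, fun i j => by
        rw [hi0 i, hi0 j, dist_self]; exact hε₁⟩
      rw [h11 x hx', d_eq_zero fun z _ => z1 z]
    · have hx' : Sm (B₂ ∩ P) ε₂ x := ⟨fun i => by
        rw [hi0 i]; exact ⟨hBB₂ h, (hx.1 0).2⟩, fun i j => by
        rw [hi0 i, hi0 j, dist_self]; exact hε₂⟩
      rw [h21 x hx', d_eq_zero fun z _ => z2 z]
  calc rk g χ ((A₃ ∪ B₃) ∩ P) ((A₃ ∪ B₃) ∩ Q) ((A ∪ B) ∩ P) ((A ∪ B) ∩ Q) 0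
      ≤ qr Z BA + qr (Z ⊓ BA) B0 := qr_split Z B0 BA
    _ ≤ qr Z BA + (qr (Z ⊓ BA) BB + qr (Z ⊓ BA ⊓ BB) B0) :=
        add_le_add le_rfl (qr_split (Z ⊓ BA) B0 BB)
    _ ≤ _ := by
        rw [s3, add_zero]
        exact add_le_add s1 s2

end MV

end Vale.Agent.P216.H41
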