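import Vale.Agent.P216.AS.Htpy
import Vale.Agent.P216.AS.Alg707
import Vale.Agent.P265.H336.Susp

/-!
# Euler characteristics in Alexander-Spanier cohomology: generalities (P216, block EULER)
-/

open Set

namespace Vale.Agent.P216.H41

open Vale.Agent.P216.AS
open Vale.Agent.P265.AS (hh Zs Bs qr)

variable {E E' : Type} [PseudoMetricSpace E] [PseudoMetricSpace E'] {k : Type} [Field k]

/-! ### The rank of `Hr` is `hh` -/

theorem rank_Hr {g : E → E} {χ : k} {X A : Set E} (n : ℕ) :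
    Module.rank k (Hr (fun _ : Unit => g) (fun _ : Unit => χ) X A n) = hh g χ X A n := by
  have hZ : ∀ c, c ∈ Zc (Zr (fun _ : Unit => g) (fun _ : Unit => χ) X A)
      (Zr (fun _ : Unit => g) (fun _ : Unit => χ) X X) n ↔ c ∈ Zs g χ X A n := by
    intro c
    rw [mem_Zc_rel]
    constructor
    · rintro ⟨h1, ⟨ε, hε, h2⟩, ε', hε', h3⟩
      exact ⟨fun x hx => h1 () x hx, min ε ε', lt_min hε hε',
        fun x hx => h3 x (hx.mono le_rfl (min_le_right _ _)),
        fun x hx => h2 x (hx.mono le_rfl (min_le_left _ _))⟩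
    · rintro ⟨h1, ε, hε, h2, h3⟩
      exact ⟨fun _ x hx => h1 x hx, ⟨ε, hε, h3⟩, ε, hε, h2⟩
  have hB : ∀ c, c ∈ Zs g χ X A n → (c ∈ Bc (Zr (fun _ : Unit => g) (fun _ : Unit => χ) X A)
      (Zr (fun _ : Unit => g) (fun _ : Unit => χ) X X) n ↔ c ∈ Bs g χ X A n) := by
    intro c hc
    cases n with
    | zero =>
      rw [mem_Bc_zero]
      constructor
      · rintro ⟨-, ε, hε, h⟩
        refine ⟨0, fun x _ => by simp, ε, hε, fun x hx => ?_, fun _ _ => rfl⟩
        rw [h x hx]; rfl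
      · rintro ⟨b, -, ε, hε, h, h'⟩
        refine ⟨fun _ x hx => hc.1 x hx, ε, hε, fun x hx => (h x hx).trans ?_⟩
        rw [P265.AS.d_zero_apply]
        exact h' _ ⟨fun i => i.elim0, fun i => i.elim0⟩
    | succ n =>
      rw [mem_Bc_succ]
      constructor
      · rintro ⟨y, ⟨hy, ε, hε, h1⟩, -, ε', hε', h2⟩
        refine ⟨y, fun x hx => hy () x hx, min ε ε', lt_min hε hε', fun x hx => ?_,
          fun x hx => h1 x (hx.mono le_rfl (min_le_left _ _))⟩
        have := h2 x (hx.mono le_rfl (min_le_right _ _))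
        exact sub_eq_zero.1 this
      · rintro ⟨b, hb, ε, hε, h1, h2⟩
        have hb' : Eqv (fun _ : Unit => g) (fun _ : Unit => χ) X b := fun _ x hx => hb x hx
        refine ⟨b, ⟨hb', ε, hε, h2⟩, Eqv.sub (fun _ x hx => hc.1 x hx) hb'.d, ε, hε,
          fun x hx => ?_⟩
        change c x - P265.AS.d b x = 0
        rw [h1 x hx, sub_self]
  change qr (Zc _ _ n) (Bc _ _ n) = qr _ _
  refine le_antisymm ?_ ?_
  · exact P265.AS.qr_le_of_inj LinearMap.id (fun c hc => (hZ c).1 hc)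
      fun c hc hc' => (hB c ((hZ c).1 hc)).2 hc'
  · exact P265.AS.qr_le_of_inj LinearMap.id (fun c hc => (hZ c).2 hc)
      fun c hc hc' => (hB c hc).1 hc'

theorem finite_Hr {g : E → E} {χ : k} {X A : Set E} {n m : ℕ} (h : hh g χ X A n ≤ m) :
    Module.Finite k (Hr (fun _ : Unit => g) (fun _ : Unit => χ) X A n) ∧
      Module.finrank k (Hr (fun _ : Unit => g) (fun _ : Unit => χ) X A n) ≤ m := by
  rw [← rank_Hr] at h
  have hf : Module.Finite k (Hr (fun _ : Unit => g) (fun _ : Unit => χ) X A n) :=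
    Module.rank_lt_aleph0_iff.1 (h.trans_lt (Cardinal.natCast_lt_aleph0))
  refine ⟨hf, ?_⟩
  rw [← Module.finrank_eq_rank] at h
  exact_mod_cast h

/-! ### Absolute cohomology as cohomology relative to the empty set -/

section Abs

variable {I : Type} {a : I → E → E} {χ : I → k} {X : Set E}

/-- `Hr X ∅ = Ha X`. -/
noncomputable def HrEmpty (a : I → E → E) (χ : I → k) (X : Set E) (n : ℕ) :
    Hr a χ X ∅ n ≃ₗ[k] Ha a χ X n := by
  unfold Hr Ha
  rw [Zr_empty]

end Abs

/-! ### Euler characteristic of a pair -/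

section Pair

variable {I : Type} {a : I → E → E} {χ : I → k} {X A : Set E}

/-- `Ha A` in the world `X`. -/
noncomputable def HaWorld (a : I → E → E) (χ : I → k) {X A : Set E} (hA : A ⊆ X) (hi : Inv a A)
    (n : ℕ) : H (Cc a χ X) (Zr a χ X A) n ≃ₗ[k] Ha a χ A n :=
  LinearEquiv.ofBijective _ (world_bijective' hA le_rfl hi n)

/-- Dimensions in a long exact sequence `0 → T 0 → A 0 → B 0 → T 1 → ⋯`. -/
theorem sum_finrank {T A B : ℕ → Type}
    [∀ n, AddCommGroup (T n)] [∀ n, Module k (T n)]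
    [∀ n, AddCommGroup (A n)] [∀ n, Module k (A n)]
    [∀ n, AddCommGroup (B n)] [∀ n, Module k (B n)]
    [∀ n, FiniteDimensional k (T n)] [∀ n, FiniteDimensional k (A n)]
    [∀ n, FiniteDimensional k (B n)]
    (i : ∀ n, T n →ₗ[k] A n) (j : ∀ n, A n →ₗ[k] B n) (δ : ∀ n, B n →ₗ[k] T (n + 1))
    (inj : Function.Injective (i 0)) (ex1 : ∀ n, Function.Exact (i n) (j n))
    (ex2 : ∀ n, Function.Exact (j n) (δ n)) (ex3 : ∀ n, Function.Exact (δ n) (i (n + 1)))
    (m : ℕ) :
    ∑ n ∈ Finset.range (m + 1), (-1 : ℤ) ^ n * (Module.finrank k (A n) : ℤ) =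
      ∑ n ∈ Finset.range (m + 1), (-1 : ℤ) ^ n * (Module.finrank k (T n) : ℤ) +
      ∑ n ∈ Finset.range (m + 1), (-1 : ℤ) ^ n * (Module.finrank k (B n) : ℤ) -
      (-1) ^ m * (Module.finrank k (LinearMap.range (δ m)) : ℤ) := by
  have hA : ∀ n, Module.finrank k (A n) = Module.finrank k (LinearMap.range (i n)) +
      Module.finrank k (LinearMap.range (j n)) := fun n => finrank_of_exact _ _ (ex1 n)
  have hB : ∀ n, Module.finrank k (B n) = Module.finrank k (LinearMap.range (j n)) +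
      Module.finrank k (LinearMap.range (δ n)) := fun n => finrank_of_exact _ _ (ex2 n)
  have hT : ∀ n, Module.finrank k (T (n + 1)) = Module.finrank k (LinearMap.range (δ n)) +
      Module.finrank k (LinearMap.range (i (n + 1))) := fun n => finrank_of_exact _ _ (ex3 n)
  have hT0 : Module.finrank k (T 0) = Module.finrank k (LinearMap.range (i 0)) :=
    (LinearMap.finrank_range_of_inj inj).symm
  induction m with
  | zero =>
    simp only [zero_add, Finset.sum_range_one, pow_zero, one_mul]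
    rw [hA 0, hB 0, hT0]
    push_cast
    ring
  | succ m ih =>
    rw [Finset.sum_range_succ, ih,
      Finset.sum_range_succ (fun n => (-1 : ℤ) ^ n * (Module.finrank k (T n) : ℤ)) (m + 1),
      Finset.sum_range_succ (fun n => (-1 : ℤ) ^ n * (Module.finrank k (B n) : ℤ)) (m + 1),
      hA (m + 1), hB (m + 1), hT m]
    push_cast
    ring

/-- **Additivity of the Euler characteristic**. -/
theorem euler_pair (hA : A ⊆ X) (hi : Inv a A) (h1 : ∀ n, Module.Finite k (Hr a χ X A n))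
    (h2 : ∀ n, Module.Finite k (Ha a χ X n)) (h3 : ∀ n, Module.Finite k (Ha a χ A n)) {m : ℕ}
    (hm : Module.finrank k (Ha a χ A m) = 0) :
    ∑ n ∈ Finset.range (m + 1), (-1 : ℤ) ^ n * (Module.finrank k (Ha a χ X n) : ℤ) =
      ∑ n ∈ Finset.range (m + 1), (-1 : ℤ) ^ n * (Module.finrank k (Hr a χ X A n) : ℤ) +
      ∑ n ∈ Finset.range (m + 1), (-1 : ℤ) ^ n * (Module.finrank k (Ha a χ A n) : ℤ) := by
  have hTS : Zr a χ X X ≤ Zr a χ X A := Zr_anti le_rfl hA
  have hSR : Zr a χ X A ≤ Cc a χ X := Zr_le_Cc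
  have h3' : ∀ n, Module.Finite k (H (Cc a χ X) (Zr a χ X A) n) := fun n =>
    haveI := h3 n
    Module.Finite.equiv (HaWorld a χ hA hi n).symm
  have e : ∀ n, Module.finrank k (H (Cc a χ X) (Zr a χ X A) n) =
      Module.finrank k (Ha a χ A n) := fun n => (HaWorld a χ hA hi n).finrank_eq
  have key := sum_finrank (k := k) (T := fun n => Hr a χ X A n) (A := fun n => Ha a χ X n)
    (B := fun n => H (Cc a χ X) (Zr a χ X A) n)
    (fun n => Hinc hSR le_rfl n) (fun n => Hinc le_rfl hTS n)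
    (fun n => Hdel (Cc a χ X) (Zr a χ X A) (Zr a χ X X) n)
    (inc_zero_injective hSR) (fun n => exact_mid hTS hSR) (fun n => exact_del hTS hSR)
    (fun n => exact_inc hTS hSR) m
  rw [key]
  have h0 : Module.finrank k (LinearMap.range
      (Hdel (Cc a χ X) (Zr a χ X A) (Zr a χ X X) m)) = 0 := by
    have := LinearMap.finrank_range_le (Hdel (Cc a χ X) (Zr a χ X A) (Zr a χ X X) m)
    rw [e m, hm] at this
    omega
  rw [h0]
  simp only [e]
  simp

end Pair

/-! ### Homotopy equivalences -/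

section Htpy

variable {I : Type} {a : I → E → E} {a' : I → E' → E'} {χ : I → k} {X : Set E} {X' : Set E'}

/-- A homotopy equivalence induces isomorphisms. -/
theorem pull_bijective {f : E → E'} {g : E' → E} (hf : IsMap a a' X X' f)
    (hg : IsMap a' a X' X g) {D : ℝ → E → E} {D' : ℝ → E' → E'} (hD : IsHtpy a a X X D)
    (hD' : IsHtpy a' a' X' X' D') (h0 : ∀ x ∈ X, D 0 x = x) (h1 : ∀ x ∈ X, D 1 x = g (f x))
    (h0' : ∀ x ∈ X', D' 0 x = x) (h1' : ∀ x ∈ X', D' 1 x = f (g x)) (n : ℕ) :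
    Function.Bijective (pull χ hf n) := by
  have e1 : ∀ x, pull χ hf n (pull χ hg n x) = x := by
    intro x
    rw [← pull_comp hg hf, pull_congr (hg.comp hf) hD.one (fun x hx => (h1 x hx).symm),
      pull_homotopy hD, pull_eq_res le_rfl hD.zero h0]
    exact res_refl le_rfl x
  have e2 : ∀ x, pull χ hg n (pull χ hf n x) = x := by
    intro x
    rw [← pull_comp hf hg, pull_congr (hf.comp hg) hD'.one (fun x hx => (h1' x hx).symm),
      pull_homotopy hD', pull_eq_res le_rfl hD'.zero h0']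
    exact res_refl le_rfl x
  exact ⟨fun x y hxy => by rw [← e2 x, ← e2 y, hxy], fun x => ⟨_, e1 x⟩⟩

/-- Pushing the larger subset into the smaller one. -/
theorem resR_bijective_of_push {A B : Set E} (hAB : A ⊆ B) (hB : B ⊆ X) {D : ℝ → E → E}
    (hD : IsHtpy a a X X D) (hDA : ∀ s ∈ Icc (0 : ℝ) 1, MapsTo (D s) A A)
    (hDB : ∀ s ∈ Icc (0 : ℝ) 1, MapsTo (D s) B B) (h0 : ∀ x ∈ X, D 0 x = x)
    (h1 : MapsTo (D 1) B A) (n : ℕ) :
    Function.Bijective (resR le_rfl hAB n : Hr a χ X B n →ₗ[k] Hr a χ X A n) := by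
  have hA := hAB.trans hB
  have e1 : ∀ x : Hr a χ X A n,
      resR (k := k) le_rfl hAB n (pullR χ hD.one hB h1 n x) = x := by
    intro x
    have h2 : resR (k := k) le_rfl hAB n (pullR χ hD.one hB h1 n x) =
        pullR χ hD.one hA (hDA 1 ⟨zero_le_one, le_rfl⟩) n x := by
      obtain ⟨c, hc, rfl⟩ := H.exists_mk x
      rfl
    rw [h2, pullR_homotopy hD hA hDA, pullR_eq_resR le_rfl le_rfl hA hD.zero _ h0]
    exact Hinc_refl _ _ x
  have e2 : ∀ x : Hr a χ X B n,
      pullR χ hD.one hB h1 n (resR (k := k) le_rfl hAB n x) = x := by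
    intro x
    have h2 : pullR χ hD.one hB h1 n (resR (k := k) le_rfl hAB n x) =
        pullR χ hD.one hB (hDB 1 ⟨zero_le_one, le_rfl⟩) n x := by
      obtain ⟨c, hc, rfl⟩ := H.exists_mk x
      rfl
    rw [h2, pullR_homotopy hD hB hDB, pullR_eq_resR le_rfl le_rfl hB hD.zero _ h0]
    exact Hinc_refl _ _ x
  exact ⟨fun x y hxy => by rw [← e2 x, ← e2 y, hxy], fun x => ⟨_, e1 x⟩⟩

end Htpy

/-! ### Contractible sets -/

section Contr

/-- The trivial symmetry. -/
abbrev tr (E : Type) : Unit → E → E := fun _ => id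

/-- Cohomology with coefficients in `k`. -/
abbrev Hs (k : Type) [Field k] (X : Set E) (n : ℕ) : Type :=
  Ha (tr E) (fun _ : Unit => (1 : k)) X n

theorem finrank_contractible {X : Set E} {x₀ : E} (hx₀ : x₀ ∈ X) {D : ℝ → E → E}
    (hD : IsHtpy (tr E) (tr E) X X D) (h0 : ∀ x ∈ X, D 0 x = x) (h1 : ∀ x ∈ X, D 1 x = x₀)
    (n : ℕ) : Module.Finite k (Hs k X n) ∧
      Module.finrank k (Hs k X n) = if n = 0 then 1 else 0 := by
  have e1 : hh id (1 : k) X ∅ n ≤ hh id (1 : k) (univ : Set Unit) ∅ n := by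
    refine P265.AS.hh_le_of_retract (g' := id) (X' := (univ : Set Unit)) (A' := ∅)
      (φ := fun _ => ()) (ψ := fun _ => x₀) (H := D) ?_ ?_ ?_ (empty_subset _)
      (empty_subset _) h0 h1 1 n
    · exact ⟨fun _ _ => trivial, fun x hx => absurd hx (notMem_empty _), fun _ _ => rfl,
        fun ε hε => ⟨1, one_pos, fun x _ y _ _ => by simpa using hε⟩⟩
    · exact ⟨fun _ _ => hx₀, fun x hx => absurd hx (notMem_empty _), fun _ _ => rfl,
        fun ε hε => ⟨1, one_pos, fun x _ y _ _ => by simpa using hε⟩⟩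
    · exact ⟨fun s hs x hx => hD.mapsX s hs hx, fun s _ x hx => absurd hx (notMem_empty _),
        fun s hs x hx => hD.eqv s hs () x hx, hD.uc⟩
  have e2 : hh id (1 : k) X ∅ n ≤ ((if n = 0 then 1 else 0 : ℕ) : Cardinal) := by
    refine e1.trans ?_
    cases n with
    | zero => simpa using P265.AS.hh_point_zero (1 : k)
    | succ n => simpa using (P265.AS.hh_point_succ (1 : k) n).le
  obtain ⟨f1, f2⟩ := finite_Hr e2
  have f3 : Module.Finite k (Hs k X n) :=
    Module.Finite.equiv (HrEmpty (tr E) (fun _ : Unit => (1 : k)) X n)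
  refine ⟨f3, ?_⟩
  rw [(HrEmpty (tr E) (fun _ : Unit => (1 : k)) X n).finrank_eq] at f2
  refine le_antisymm f2 ?_
  cases n with
  | succ n => simp
  | zero =>
    have hz : (fun _ => 1 : (Fin (0 + 1) → E) → k) ∈
        Zc (Cc (tr E) (fun _ : Unit => (1 : k)) X)
          (Zr (tr E) (fun _ : Unit => (1 : k)) X X) 0 := by
      rw [mem_Zc_abs]
      refine ⟨fun _ _ _ => by simp, 1, one_pos, fun y _ => ?_⟩
      rw [P265.AS.d_succ_apply, P265.AS.d_zero_apply]; simp
    have hne : (H.mk _ hz : Hs k X 0) ≠ 0 := by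
      intro h
      rw [H.mk_eq_zero, mem_Bc_zero] at h
      obtain ⟨-, ε, hε, h⟩ := h
      exact one_ne_zero (h (fun _ => x₀) ⟨fun _ => hx₀, fun _ _ => by simpa using hε⟩)
    rw [if_pos rfl]
    have : Nontrivial (Hs k X 0) := ⟨_, _, hne⟩
    exact Module.finrank_pos

end Contr

end Vale.Agent.P216.H41
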