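import Vale.Agent.P216.H41.Fin1

/-!
# Cohomology of finite simplicial pairs: bounded by the number of simplices, for all fields
(P216, block FINRANK)
-/

open Set Finset

namespace Vale.Agent.P216.H41

open Vale.Agent.P265.AS

variable {N : ℕ}

/-- The closed simplex spanned by `I`. -/
def smp (I : Finset (Fin N)) : Set (Fin N → ℝ) :=
  {x | x ∈ stdSimplex ℝ (Fin N) ∧ ∀ i, i ∉ I → x i = 0}

/-- The polyhedron of a family of simplices. -/
def cpx (S : Finset (Finset (Fin N))) : Set (Fin N → ℝ) := {x | ∃ I ∈ S, x ∈ smp I}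

theorem smp_sub {I : Finset (Fin N)} : smp I ⊆ stdSimplex ℝ (Fin N) := fun _ h => h.1

theorem isCompact_smp (I : Finset (Fin N)) : IsCompact (smp I) := by
  refine (isCompact_stdSimplex ℝ (Fin N)).of_isClosed_subset ?_ smp_sub
  have : smp I = stdSimplex ℝ (Fin N) ∩ ⋂ i, ⋂ (_ : i ∉ I), {x | x i = 0} := by
    ext x; simp [smp]
  rw [this]
  refine (isClosed_stdSimplex ℝ (Fin N)).inter (isClosed_iInter fun i => isClosed_iInter fun _ => ?_)
  exact isClosed_eq (continuous_apply i) continuous_const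

theorem cpx_sub {S : Finset (Finset (Fin N))} : cpx S ⊆ stdSimplex ℝ (Fin N) := by
  rintro x ⟨I, -, hx⟩
  exact hx.1

theorem isCompact_cpx (S : Finset (Finset (Fin N))) : IsCompact (cpx S) := by
  have : cpx S = ⋃ I ∈ S, smp I := by
    ext x; simp [cpx]
  rw [this]
  exact S.finite_toSet.isCompact_biUnion fun I _ => isCompact_smp I

theorem cpx_mono {S T : Finset (Finset (Fin N))} (h : S ⊆ T) : cpx S ⊆ cpx T := by
  rintro x ⟨I, hI, hx⟩
  exact ⟨I, h hI, hx⟩

theorem inv_id {E : Type} (X : Set E) : Inv id X := fun _ => Iff.rfl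

/-- Re-indexing a simplex. -/
theorem hh_smp_le {k : Type} [Field k] {I : Finset (Fin N)} {n : ℕ} (hI : I.card = n) (ε : ℝ)
    (χ : k) (j : ℕ) : hh id χ (smp I) {x | x ∈ smp I ∧ ∃ i ∈ I, x i ≤ ε} j ≤
      hh id χ (stdSimplex ℝ (Fin n)) (bd n ε) j := by
  set e : Fin n ↪o Fin N := I.orderEmbOfFin hI with he
  have hmem : ∀ i, e i ∈ I := fun i => I.orderEmbOfFin_mem hI i
  have hrange : ∀ i ∈ I, ∃ a, e a = i := by
    intro i hi
    have : i ∈ Set.range e := by
      rw [he, Finset.range_orderEmbOfFin]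
      exact hi
    exact this
  have hinj : Function.Injective e := e.injective
  have hsum : ∀ x ∈ smp I, ∑ a, x (e a) = 1 := by
    intro x hx
    rw [← hx.1.2]
    have h1 : ∑ i, x i = ∑ i ∈ I, x i := by
      symm
      refine Finset.sum_subset (Finset.subset_univ _) fun i _ hi => hx.2 i hi
    rw [h1]
    have h2 : I = Finset.univ.map e.toEmbedding := by
      ext i
      simp only [Finset.mem_map, Finset.mem_univ, true_and]
      constructor
      · intro hi
        obtain ⟨a, ha⟩ := hrange i hi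
        exact ⟨a, ha⟩
      · rintro ⟨a, rfl⟩
        exact hmem a
    conv_rhs => rw [h2]
    rw [Finset.sum_map]
    rfl
  set ψ : (Fin n → ℝ) → (Fin N → ℝ) := fun y i => ∑ a, if e a = i then y a else 0 with hψ
  have hψe : ∀ y a, ψ y (e a) = y a := by
    intro y a
    rw [hψ]
    simp only [hinj.eq_iff]
    rw [Finset.sum_ite_eq' Finset.univ a]
    simp
  have hψ0 : ∀ y i, i ∉ I → ψ y i = 0 := by
    intro y i hi
    rw [hψ]
    refine Finset.sum_eq_zero fun a _ => ?_
    rw [if_neg]
    rintro rfl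
    exact hi (hmem a)
  have hψS : ∀ y ∈ stdSimplex ℝ (Fin n), ψ y ∈ smp I := by
    intro y hy
    refine ⟨⟨fun i => ?_, ?_⟩, fun i hi => hψ0 y i hi⟩
    · rw [hψ]
      refine Finset.sum_nonneg fun a _ => ?_
      split_ifs
      · exact hy.1 a
      · exact le_rfl
    · rw [hψ, Finset.sum_comm]
      simp only [Finset.sum_ite_eq, Finset.mem_univ, if_true]
      exact hy.2
  refine hh_le_of_section (φ := fun x a => x (e a)) (ψ := ψ) ?_ ?_ (fun x hx => hx.1)
    (fun x hx => hx.1) ?_ χ j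
  · refine ⟨fun x hx => ⟨fun a => hx.1.1 _, hsum x hx⟩, fun x hx => ?_, fun _ _ => rfl, ?_⟩
    · obtain ⟨hx, i, hi, hxi⟩ := hx
      obtain ⟨a, rfl⟩ := hrange i hi
      exact ⟨⟨fun a => hx.1.1 _, hsum x hx⟩, a, hxi⟩
    · refine uc_of_compact' (isCompact_smp I) ?_
      exact Continuous.continuousOn (continuous_pi fun a => continuous_apply _)
  · refine ⟨hψS, fun y hy => ?_, fun _ _ => rfl, ?_⟩
    · obtain ⟨hy, a, ha⟩ := hy
      exact ⟨hψS y hy, e a, hmem a, by rw [hψe]; exact ha⟩
    · refine uc_of_compact' (isCompact_stdSimplex ℝ (Fin n)) ?_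
      refine Continuous.continuousOn (continuous_pi fun i => ?_)
      rw [hψ]
      refine continuous_finsetSum _ fun a _ => ?_
      split_ifs
      · exact continuous_apply a
      · exact continuous_const
  · intro x hx
    funext i
    by_cases hi : i ∈ I
    · obtain ⟨a, rfl⟩ := hrange i hi
      rw [hψe]
    · rw [hψ0 _ i hi, hx.2 i hi]

/-- Adding one simplex. -/
theorem hh_add_simplex {k : Type} [Field k] {S : Finset (Finset (Fin N))} {I : Finset (Fin N)}
    (hIS : I ∈ S) (hmax : ∀ J ∈ S, I ⊆ J → J = I) (hfc : ∀ J, J ⊂ I → J ∈ S) {l : ℕ}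
    (hl : I.card = l + 1) (χ : k) (j : ℕ) :
    hh id χ (cpx S) (cpx (S.erase I)) j ≤ if j = l then 1 else 0 := by
  classical
  have hne : I.Nonempty := by
    rw [← Finset.card_pos]; omega
  have hl0 : (0 : ℝ) < (l : ℝ) + 1 := by positivity
  set ε : ℝ := 1 / (2 * (l + 1)) with hε
  have hεpos : 0 < ε := by positivity
  have hεl : ε * (l + 1) = 1 / 2 := by rw [hε]; field_simp
  set μ : (Fin N → ℝ) → ℝ := fun x => I.inf' hne x with hμ
  have hμc : Continuous μ := Continuous.finset_inf'_apply hne fun i _ => continuous_apply i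
  have hμle : ∀ x, ∀ i ∈ I, μ x ≤ x i := fun x i hi => Finset.inf'_le _ hi
  have hμex : ∀ x, ∃ i ∈ I, μ x = x i := fun x => Finset.exists_mem_eq_inf' hne x
  -- basic facts
  have hμ0 : ∀ x ∈ cpx S, 0 ≤ μ x := by
    intro x hx
    obtain ⟨i, -, hi⟩ := hμex x
    rw [hi]
    exact (cpx_sub hx).1 i
  have hf1 : ∀ x ∈ cpx (S.erase I), μ x = 0 := by
    intro x hx
    refine le_antisymm ?_ (hμ0 x (cpx_mono (Finset.erase_subset _ _) hx))
    obtain ⟨J, hJ, hxJ⟩ := hx
    obtain ⟨hJI, hJS⟩ := Finset.mem_erase.1 hJ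
    have : ¬ I ⊆ J := fun h => hJI (hmax J hJS h)
    rw [Finset.not_subset] at this
    obtain ⟨i, hi, hiJ⟩ := this
    rw [← hxJ.2 i hiJ]
    exact hμle x i hi
  have hf2 : ∀ x ∈ cpx S, μ x ≤ 0 → x ∈ cpx (S.erase I) := by
    rintro x ⟨J, hJ, hxJ⟩ hx
    by_cases hJI : J = I
    · subst hJI
      obtain ⟨i, hi, hix⟩ := hμex x
      have hxi : x i = 0 := le_antisymm (hix ▸ hx) (hxJ.1.1 i)
      have hss : J.erase i ⊂ J := Finset.erase_ssubset hi
      refine ⟨J.erase i, Finset.mem_erase.2 ⟨hss.ne, hfc _ hss⟩, hxJ.1, fun a ha => ?_⟩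
      by_cases hai : a = i
      · rw [hai, hxi]
      · exact hxJ.2 a fun h => ha (Finset.mem_erase.2 ⟨hai, h⟩)
    · exact ⟨J, Finset.mem_erase.2 ⟨hJI, hJ⟩, hxJ⟩
  have hf3 : ∀ x ∈ cpx S, 0 < μ x → x ∈ smp I := by
    rintro x ⟨J, hJ, hxJ⟩ hx
    have : I ⊆ J := by
      intro i hi
      by_contra hiJ
      have := hμle x i hi
      rw [hxJ.2 i hiJ] at this
      linarith
    rw [← hmax J hJ this]
    exact hxJ
  -- the push
  set c : (Fin N → ℝ) → ℝ := fun x => min (μ x) ε with hc
  have hcc : Continuous c := hμc.min continuous_const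
  have hc0 : ∀ x ∈ cpx S, 0 ≤ c x := fun x hx => le_min (hμ0 x hx) hεpos.le
  have hcμ : ∀ x, c x ≤ μ x := fun x => min_le_left _ _
  have hcε : ∀ x, c x ≤ ε := fun x => min_le_right _ _
  set ind : Fin N → ℝ := fun i => if i ∈ I then 1 else 0 with hind
  have hindsum : ∑ i, ind i = l + 1 := by
    rw [hind]
    simp [hl]
  set H : ℝ → (Fin N → ℝ) → (Fin N → ℝ) := fun s x i =>
    (x i - s * c x * ind i) / (1 - s * c x * (l + 1)) with hH
  have hden : ∀ s ∈ Icc (0 : ℝ) 1, ∀ x ∈ cpx S, 1 / 2 ≤ 1 - s * c x * (l + 1) := by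
    intro s hs x hx
    have h1 : s * c x ≤ 1 * ε := mul_le_mul hs.2 (hcε x) (hc0 x hx) (by norm_num)
    have h2 : s * c x * (l + 1) ≤ 1 * ε * (l + 1) := by
      exact mul_le_mul_of_nonneg_right h1 hl0.le
    rw [one_mul, hεl] at h2
    linarith
  have hnum : ∀ s ∈ Icc (0 : ℝ) 1, ∀ x ∈ cpx S, ∀ i, 0 ≤ x i - s * c x * ind i := by
    intro s hs x hx i
    rw [hind]
    by_cases hi : i ∈ I
    · simp only [hi, if_true, mul_one]
      have h1 : s * c x ≤ c x := mul_le_of_le_one_left (hc0 x hx) hs.2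
      have h2 := hcμ x
      have h3 := hμle x i hi
      linarith
    · simp only [hi, if_false, mul_zero, sub_zero]
      exact (cpx_sub hx).1 i
  have hHstd : ∀ s ∈ Icc (0 : ℝ) 1, ∀ x ∈ cpx S, H s x ∈ stdSimplex ℝ (Fin N) := by
    intro s hs x hx
    have hd := hden s hs x hx
    refine ⟨fun i => div_nonneg (hnum s hs x hx i) (by linarith), ?_⟩
    rw [hH]
    simp only
    rw [← Finset.sum_div, Finset.sum_sub_distrib, ← Finset.mul_sum, hindsum, (cpx_sub hx).2,
      div_self (by linarith)]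
  have hHsupp : ∀ s ∈ Icc (0 : ℝ) 1, ∀ x ∈ cpx S, ∀ i, x i = 0 → H s x i = 0 := by
    intro s hs x hx i hi
    rw [hH]
    simp only
    by_cases hiI : i ∈ I
    · have h1 : μ x = 0 := le_antisymm (hi ▸ hμle x i hiI) (hμ0 x hx)
      have h2 : c x = 0 := le_antisymm (h1 ▸ hcμ x) (hc0 x hx)
      rw [h2, hi]; simp
    · have : ind i = 0 := by rw [hind]; simp [hiI]
      rw [this, hi]; simp
  have hHS : ∀ s ∈ Icc (0 : ℝ) 1, ∀ x ∈ cpx S, H s x ∈ cpx S := by
    intro s hs x hx
    have hx' := hx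
    obtain ⟨J, hJ, hxJ⟩ := hx'
    exact ⟨J, hJ, hHstd s hs x hx, fun i hi => hHsupp s hs x hx i (hxJ.2 i hi)⟩
  have hHid : ∀ s, ∀ x ∈ cpx S, μ x = 0 → H s x = x := by
    intro s x hx h0
    have h2 : c x = 0 := le_antisymm (h0 ▸ hcμ x) (hc0 x hx)
    funext i
    rw [hH]
    simp [h2]
  have hHt : IsHtpy id id (cpx S) (cpx (S.erase I)) (cpx S) (cpx (S.erase I)) H := by
    refine ⟨hHS, fun s hs x hx => ?_, fun _ _ _ _ => rfl, ?_⟩
    · rw [hHid s x (cpx_mono (Finset.erase_subset _ _) hx) (hf1 x hx)]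
      exact hx
    · refine uc_of_compact (isCompact_cpx S) ?_
      refine continuousOn_pi.2 fun i => ?_
      refine ContinuousOn.div ?_ ?_ fun q hq => ?_
      · refine Continuous.continuousOn ?_
        have : Continuous fun q : ℝ × (Fin N → ℝ) => c q.2 := hcc.comp continuous_snd
        fun_prop
      · refine Continuous.continuousOn ?_
        have : Continuous fun q : ℝ × (Fin N → ℝ) => c q.2 := hcc.comp continuous_snd
        fun_prop
      · have := hden q.1 hq.1 q.2 hq.2
        linarith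
  set B : Set (Fin N → ℝ) := {x | x ∈ cpx S ∧ μ x ≤ ε} with hB
  have e1 : hh id χ (cpx S) (cpx (S.erase I)) j ≤ hh id χ (cpx S) B j := by
    refine hh_le_of_push hHt ?_ (fun x hx => hx.1) ?_ ?_ χ j
    · intro x hx
      refine ⟨cpx_mono (Finset.erase_subset _ _) hx, ?_⟩
      rw [hf1 x hx]; exact hεpos.le
    · intro x hx
      rw [hH]
      funext i
      simp
    · intro x hx
      have hs1 : (1 : ℝ) ∈ Icc (0 : ℝ) 1 := ⟨zero_le_one, le_rfl⟩
      refine hf2 _ (hHS 1 hs1 x hx.1) ?_
      obtain ⟨i, hi, hix⟩ := hμex x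
      refine (hμle _ i hi).trans ?_
      have hcx : c x = μ x := min_eq_left hx.2
      rw [hH]
      simp only
      have : ind i = 1 := by rw [hind]; simp [hi]
      rw [this, hcx, hix]
      simp
  have e2 : hh id χ (cpx S) B j ≤ hh id χ (smp I) (smp I ∩ B) j := by
    refine hh_le_excision (show smp I ⊆ cpx S from fun x hx => ⟨I, hIS, hx⟩) (inv_id _) hεpos
      ?_ χ j
    intro x hx hxB y hy hxy
    have hμx : ε < μ x := by
      by_contra h
      exact hxB ⟨hx, not_lt.1 h⟩
    refine hf3 y hy ?_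
    obtain ⟨i, hi, hiy⟩ := hμex y
    rw [hiy]
    have h1 := hμle x i hi
    have h2 := (dist_le_pi_dist x y i).trans_lt hxy
    rw [Real.dist_eq, abs_lt] at h2
    linarith [h2.2]
  have e3 : hh id χ (smp I) (smp I ∩ B) j ≤
      hh id χ (smp I) {x | x ∈ smp I ∧ ∃ i ∈ I, x i ≤ ε} j := by
    refine hh_le_of_section (φ := id) (ψ := id) ?_ ?_ (fun x hx => hx.1) (fun x hx => hx.1)
      (fun _ _ => rfl) χ j
    · refine isMapP_id le_rfl ?_
      rintro x ⟨hx, -, hx2⟩
      obtain ⟨i, hi, hix⟩ := hμex x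
      exact ⟨hx, i, hi, by rw [← hix]; exact hx2⟩
    · refine isMapP_id le_rfl ?_
      rintro x ⟨hx, i, hi, hix⟩
      exact ⟨hx, ⟨I, hIS, hx⟩, (hμle x i hi).trans hix⟩
  refine (e1.trans (e2.trans e3)).trans ((hh_smp_le hl ε χ j).trans ?_)
  exact hh_stdSimplex_le l χ j

/-- Closed under passing to faces. -/
def FC (S : Finset (Finset (Fin N))) : Prop := ∀ I ∈ S, ∀ J, J ⊂ I → J ∈ S

theorem cpx_erase_empty (S : Finset (Finset (Fin N))) : cpx (S.erase ∅) = cpx S := by
  refine Set.Subset.antisymm (cpx_mono (Finset.erase_subset _ _)) ?_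
  rintro x ⟨I, hI, hx⟩
  refine ⟨I, Finset.mem_erase.2 ⟨?_, hI⟩, hx⟩
  rintro rfl
  have h1 : ∑ i, x i = 0 := Finset.sum_eq_zero fun i _ => hx.2 i (Finset.notMem_empty i)
  rw [hx.1.2] at h1
  exact one_ne_zero h1

/-- **Cohomology of a finite simplicial pair** is bounded by the number of simplices. -/
theorem hh_cpx_le {k : Type} [Field k] (χ : k) (j : ℕ) :
    ∀ (n : ℕ) (S T : Finset (Finset (Fin N))), FC S → FC T → T ⊆ S → (S \ T).card = n →
      hh id χ (cpx S) (cpx T) j ≤
        (((S \ T).filter fun I => I.card = j + 1).card : Cardinal) := by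
  intro n
  induction n using Nat.strong_induction_on with
  | _ n ih =>
  intro S T hS hT hTS hn
  rcases (S \ T).eq_empty_or_nonempty with he | hne
  · have : S = T := Finset.Subset.antisymm (Finset.sdiff_eq_empty_iff_subset.1 he) hTS
    rw [this, hh_self]
    exact zero_le
  · obtain ⟨I, hI, hImax⟩ := Finset.exists_max_image (S \ T) Finset.card hne
    obtain ⟨hIS, hIT⟩ := Finset.mem_sdiff.1 hI
    have hmax : ∀ J ∈ S, I ⊆ J → J = I := by
      intro J hJ hIJ
      by_cases hJT : J ∈ T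
      · rcases hIJ.eq_or_ssubset with h | h
        · exact h.symm
        · exact absurd (hT J hJT I h) hIT
      · exact (Finset.eq_of_subset_of_card_le hIJ
          (hImax J (Finset.mem_sdiff.2 ⟨hJ, hJT⟩))).symm
    have hfc' : FC (S.erase I) := by
      intro J hJ J' hJ'
      obtain ⟨hJI, hJS⟩ := Finset.mem_erase.1 hJ
      refine Finset.mem_erase.2 ⟨?_, hS J hJS J' hJ'⟩
      rintro rfl
      exact hJI (hmax J hJS hJ'.subset)
    have hTS' : T ⊆ S.erase I := fun J hJ => Finset.mem_erase.2 ⟨fun h => hIT (h ▸ hJ), hTS hJ⟩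
    have hsd : (S.erase I) \ T = (S \ T).erase I := by
      ext J
      simp only [Finset.mem_sdiff, Finset.mem_erase]
      tauto
    have hcard : ((S.erase I) \ T).card < n := by
      rw [hsd, ← hn]
      exact Finset.card_erase_lt_of_mem hI
    have e1 := ih _ hcard (S.erase I) T hfc' hT hTS' rfl
    have e2 : hh id χ (cpx S) (cpx T) j ≤ hh id χ (cpx (S.erase I)) (cpx T) j +
        hh id χ (cpx S) (cpx (S.erase I)) j :=
      hh_triple (cpx_mono hTS') (cpx_mono (Finset.erase_subset _ _)) (inv_id _) χ j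
    rcases Nat.eq_zero_or_pos I.card with h0 | hpos
    · have hI0 : I = ∅ := Finset.card_eq_zero.1 h0
      have : cpx (S.erase I) = cpx S := by rw [hI0]; exact cpx_erase_empty S
      rw [this] at e1
      refine e1.trans ?_
      exact_mod_cast Finset.card_le_card (Finset.filter_subset_filter _
        (Finset.sdiff_subset_sdiff (Finset.erase_subset _ _) le_rfl))
    · obtain ⟨l, hl⟩ : ∃ l, I.card = l + 1 := ⟨I.card - 1, by omega⟩
      have e3 := hh_add_simplex hIS hmax (fun J hJ => hS I hIS J hJ) hl χ j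
      refine (e2.trans (add_le_add e1 e3)).trans ?_
      have hfil : ((S.erase I \ T).filter fun I => I.card = j + 1).card +
          (if j = l then 1 else 0) ≤ ((S \ T).filter fun I => I.card = j + 1).card := by
        rw [hsd]
        split_ifs with hj
        · have hmem : I ∈ (S \ T).filter fun I => I.card = j + 1 :=
            Finset.mem_filter.2 ⟨hI, by rw [hl, hj]⟩
          have hfe : ((S \ T).erase I).filter (fun I => I.card = j + 1) =
              ((S \ T).filter fun I => I.card = j + 1).erase I := by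
            ext J
            simp only [Finset.mem_filter, Finset.mem_erase]
            tauto
          rw [hfe, Finset.card_erase_of_mem hmem]
          have := Finset.card_pos.2 ⟨I, hmem⟩
          omega
        · rw [add_zero]
          exact Finset.card_le_card (Finset.filter_subset_filter _ (Finset.erase_subset _ _))
      calc (((S.erase I \ T).filter fun I => I.card = j + 1).card : Cardinal) +
            (if j = l then 1 else 0)
          = ((((S.erase I \ T).filter fun I => I.card = j + 1).card +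
            (if j = l then 1 else 0) : ℕ) : Cardinal) := by
            split_ifs <;> simp
        _ ≤ _ := by exact_mod_cast hfil

end Vale.Agent.P216.H41
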