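import Vale.Agent.P216.H41.Eul1
import Vale.Agent.P216.H41.Fin2

/-!
# The Euler characteristic of a finite simplicial complex in Alexander-Spanier cohomology
(P216, block EULER)
-/

open Set Finset

namespace Vale.Agent.P216.H41

open Vale.Agent.P216.AS
open Vale.Agent.P265.AS (hh Zs Bs qr)

variable {N : ℕ}

/-- The part of `cpx S` where the barycentric coordinates of `I` are not all `> ε`. -/
def nearB (S : Finset (Finset (Fin N))) (I : Finset (Fin N)) (ε : ℝ) : Set (Fin N → ℝ) :=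
  {x | x ∈ cpx S ∧ ∃ i ∈ I, x i ≤ ε}

/-- The push towards the boundary of a maximal simplex. -/
theorem exists_push {S : Finset (Finset (Fin N))} {I : Finset (Fin N)}
    (hmax : ∀ J ∈ S, I ⊆ J → J = I) (hfc : ∀ J, J ⊂ I → J ∈ S) {l : ℕ}
    (hl : I.card = l + 1) :
    ∃ ε > 0, cpx (S.erase I) ⊆ nearB S I ε ∧
      (∀ x ∈ cpx S, x ∉ nearB S I ε → ∀ y ∈ cpx S, dist x y < ε → y ∈ smp I) ∧
      ε = 1 / (2 * (l + 1)) ∧
      ∃ D : ℝ → (Fin N → ℝ) → (Fin N → ℝ),
        IsHtpy (tr (Fin N → ℝ)) (tr (Fin N → ℝ)) (cpx S) (cpx S) D ∧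
        (∀ s ∈ Icc (0 : ℝ) 1, MapsTo (D s) (cpx (S.erase I)) (cpx (S.erase I))) ∧
        (∀ s ∈ Icc (0 : ℝ) 1, MapsTo (D s) (nearB S I ε) (nearB S I ε)) ∧
        (∀ x ∈ cpx S, D 0 x = x) ∧ MapsTo (D 1) (nearB S I ε) (cpx (S.erase I)) := by
  classical
  have hne : I.Nonempty := by
    rw [← Finset.card_pos]; omega
  have hl0 : (0 : ℝ) < (l : ℝ) + 1 := by positivity
  set ε : ℝ := 1 / (2 * (l + 1)) with hε
  have hεpos : 0 < ε := by positivity
  have hεl : ε * (l + 1) = 1 / 2 := by rw [hε]; field_simp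
  set μ : (Fin N → ℝ) → ℝ := fun x => I.inf' hne x with hμ
  have hμc : Continuous μ := Continuous.finset_inf'_apply hne fun i _ => continuous_apply i
  have hμle : ∀ x, ∀ i ∈ I, μ x ≤ x i := fun x i hi => Finset.inf'_le _ hi
  have hμex : ∀ x, ∃ i ∈ I, μ x = x i := fun x => Finset.exists_mem_eq_inf' hne x
  have hnear : ∀ x, x ∈ nearB S I ε ↔ x ∈ cpx S ∧ μ x ≤ ε := by
    intro x
    refine and_congr_right fun _ => ⟨?_, ?_⟩
    · rintro ⟨i, hi, hix⟩
      exact (hμle x i hi).trans hix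
    · intro h
      obtain ⟨i, hi, hix⟩ := hμex x
      exact ⟨i, hi, hix ▸ h⟩
  -- basic facts
  have hμ0 : ∀ x ∈ cpx S, 0 ≤ μ x := by
    intro x hx
    obtain ⟨i, -, hi⟩ := hμex x
    rw [hi]
    exact (cpx_sub hx).1 i
  have hf1 : ∀ x ∈ cpx (S.erase I), μ x = 0 := by
    intro x hx
    refine le_antisymm ?_ (hμ0 x (cpx_mono (Finset.erase_subset _ _) hx))
    obtain ⟨J, hJ, hxJ⟩ := hx
    obtain ⟨hJI, hJS⟩ := Finset.mem_erase.1 hJ
    have : ¬ I ⊆ J := fun h => hJI (hmax J hJS h)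
    rw [Finset.not_subset] at this
    obtain ⟨i, hi, hiJ⟩ := this
    rw [← hxJ.2 i hiJ]
    exact hμle x i hi
  have hf2 : ∀ x ∈ cpx S, μ x ≤ 0 → x ∈ cpx (S.erase I) := by
    rintro x ⟨J, hJ, hxJ⟩ hx
    by_cases hJI : J = I
    · subst hJI
      obtain ⟨i, hi, hix⟩ := hμex x
      have hxi : x i = 0 := le_antisymm (hix ▸ hx) (hxJ.1.1 i)
      have hss : J.erase i ⊂ J := Finset.erase_ssubset hi
      refine ⟨J.erase i, Finset.mem_erase.2 ⟨hss.ne, hfc _ hss⟩, hxJ.1, fun a ha => ?_⟩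
      by_cases hai : a = i
      · rw [hai, hxi]
      · exact hxJ.2 a fun h => ha (Finset.mem_erase.2 ⟨hai, h⟩)
    · exact ⟨J, Finset.mem_erase.2 ⟨hJI, hJ⟩, hxJ⟩
  have hf3 : ∀ x ∈ cpx S, 0 < μ x → x ∈ smp I := by
    rintro x ⟨J, hJ, hxJ⟩ hx
    have : I ⊆ J := by
      intro i hi
      by_contra hiJ
      have := hμle x i hi
      rw [hxJ.2 i hiJ] at this
      linarith
    rw [← hmax J hJ this]
    exact hxJ
  -- the push
  set c : (Fin N → ℝ) → ℝ := fun x => min (μ x) ε with hc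
  have hcc : Continuous c := hμc.min continuous_const
  have hc0 : ∀ x ∈ cpx S, 0 ≤ c x := fun x hx => le_min (hμ0 x hx) hεpos.le
  have hcμ : ∀ x, c x ≤ μ x := fun x => min_le_left _ _
  have hcε : ∀ x, c x ≤ ε := fun x => min_le_right _ _
  set ind : Fin N → ℝ := fun i => if i ∈ I then 1 else 0 with hind
  have hindsum : ∑ i, ind i = l + 1 := by
    rw [hind]
    simp [hl]
  set H : ℝ → (Fin N → ℝ) → (Fin N → ℝ) := fun s x i =>
    (x i - s * c x * ind i) / (1 - s * c x * (l + 1)) with hH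
  have hden : ∀ s ∈ Icc (0 : ℝ) 1, ∀ x ∈ cpx S, 1 / 2 ≤ 1 - s * c x * (l + 1) := by
    intro s hs x hx
    have h1 : s * c x ≤ 1 * ε := mul_le_mul hs.2 (hcε x) (hc0 x hx) (by norm_num)
    have h2 : s * c x * (l + 1) ≤ 1 * ε * (l + 1) := by
      exact mul_le_mul_of_nonneg_right h1 hl0.le
    rw [one_mul, hεl] at h2
    linarith
  have hnum : ∀ s ∈ Icc (0 : ℝ) 1, ∀ x ∈ cpx S, ∀ i, 0 ≤ x i - s * c x * ind i := by
    intro s hs x hx i
    rw [hind]
    by_cases hi : i ∈ I
    · simp only [hi, if_true, mul_one]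
      have h1 : s * c x ≤ c x := mul_le_of_le_one_left (hc0 x hx) hs.2
      have h2 := hcμ x
      have h3 := hμle x i hi
      linarith
    · simp only [hi, if_false, mul_zero, sub_zero]
      exact (cpx_sub hx).1 i
  have hHstd : ∀ s ∈ Icc (0 : ℝ) 1, ∀ x ∈ cpx S, H s x ∈ stdSimplex ℝ (Fin N) := by
    intro s hs x hx
    have hd := hden s hs x hx
    refine ⟨fun i => div_nonneg (hnum s hs x hx i) (by linarith), ?_⟩
    rw [hH]
    simp only
    rw [← Finset.sum_div, Finset.sum_sub_distrib, ← Finset.mul_sum, hindsum, (cpx_sub hx).2,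
      div_self (by linarith)]
  have hHsupp : ∀ s ∈ Icc (0 : ℝ) 1, ∀ x ∈ cpx S, ∀ i, x i = 0 → H s x i = 0 := by
    intro s hs x hx i hi
    rw [hH]
    simp only
    by_cases hiI : i ∈ I
    · have h1 : μ x = 0 := le_antisymm (hi ▸ hμle x i hiI) (hμ0 x hx)
      have h2 : c x = 0 := le_antisymm (h1 ▸ hcμ x) (hc0 x hx)
      rw [h2, hi]; simp
    · have : ind i = 0 := by rw [hind]; simp [hiI]
      rw [this, hi]; simp
  have hHS : ∀ s ∈ Icc (0 : ℝ) 1, ∀ x ∈ cpx S, H s x ∈ cpx S := by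
    intro s hs x hx
    have hx' := hx
    obtain ⟨J, hJ, hxJ⟩ := hx'
    exact ⟨J, hJ, hHstd s hs x hx, fun i hi => hHsupp s hs x hx i (hxJ.2 i hi)⟩
  have hHid : ∀ s, ∀ x ∈ cpx S, μ x = 0 → H s x = x := by
    intro s x hx h0
    have h2 : c x = 0 := le_antisymm (h0 ▸ hcμ x) (hc0 x hx)
    funext i
    rw [hH]
    simp [h2]
  refine ⟨ε, hεpos, fun x hx => ?_, fun x hx hxB y hy hxy => ?_, rfl, H, ?_, ?_, ?_, ?_, ?_⟩
  · rw [hnear]
    refine ⟨cpx_mono (Finset.erase_subset _ _) hx, ?_⟩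
    rw [hf1 x hx]; exact hεpos.le
  · have hμx : ε < μ x := by
      by_contra h
      exact hxB ((hnear x).2 ⟨hx, not_lt.1 h⟩)
    refine hf3 y hy ?_
    obtain ⟨i, hi, hiy⟩ := hμex y
    rw [hiy]
    have h1 := hμle x i hi
    have h2 := (dist_le_pi_dist x y i).trans_lt hxy
    rw [Real.dist_eq, abs_lt] at h2
    linarith [h2.2]
  · refine IsHtpy.of_continuousOn (isCompact_cpx S) ?_ hHS fun _ _ _ _ _ => rfl
    refine continuousOn_pi.2 fun i => ?_
    refine ContinuousOn.div ?_ ?_ fun q hq => ?_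
    · refine Continuous.continuousOn ?_
      have : Continuous fun q : ℝ × (Fin N → ℝ) => c q.2 := hcc.comp continuous_snd
      fun_prop
    · refine Continuous.continuousOn ?_
      have : Continuous fun q : ℝ × (Fin N → ℝ) => c q.2 := hcc.comp continuous_snd
      fun_prop
    · have := hden q.1 hq.1 q.2 hq.2
      linarith
  · intro s _ x hx
    rw [hHid s x (cpx_mono (Finset.erase_subset _ _) hx) (hf1 x hx)]
    exact hx
  · intro s hs x hx
    rw [hnear] at hx ⊢
    refine ⟨hHS s hs x hx.1, ?_⟩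
    obtain ⟨i, hi, hix⟩ := hμex x
    refine (hμle _ i hi).trans ?_
    have hcx : c x = μ x := min_eq_left hx.2
    have hd := hden s hs x hx.1
    rw [hH]
    simp only
    have hii : ind i = 1 := by rw [hind]; simp [hi]
    rw [div_le_iff₀ (by linarith), hii, hcx, ← hix]
    have h3 := hx.2
    have h4 : 0 ≤ s * μ x := mul_nonneg hs.1 (hμ0 x hx.1)
    have h5 : ε * (1 - s * μ x * (l + 1)) = ε - s * μ x * (ε * (l + 1)) := by ring
    rw [h5, hεl]
    nlinarith
  · intro x hx
    rw [hH]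
    funext i
    simp
  · intro x hx
    rw [hnear] at hx
    have hs1 : (1 : ℝ) ∈ Icc (0 : ℝ) 1 := ⟨zero_le_one, le_rfl⟩
    refine hf2 _ (hHS 1 hs1 x hx.1) ?_
    obtain ⟨i, hi, hix⟩ := hμex x
    refine (hμle _ i hi).trans ?_
    have hcx : c x = μ x := min_eq_left hx.2
    rw [hH]
    simp only
    have : ind i = 1 := by rw [hind]; simp [hi]
    rw [this, hcx, hix]
    simp

theorem smp_eq_cpx (I : Finset (Fin N)) : smp I = cpx I.powerset := by
  ext x
  constructor
  · intro hx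
    exact ⟨I, Finset.mem_powerset_self I, hx⟩
  · rintro ⟨J, hJ, hx⟩
    exact ⟨hx.1, fun i hi => hx.2 i fun h => hi (Finset.mem_powerset.1 hJ h)⟩

/-- Relative cohomology with coefficients in `k`. -/
abbrev Hrs (k : Type) [Field k] {E : Type} [PseudoMetricSpace E] (X A : Set E) (n : ℕ) : Type :=
  Hr (tr E) (fun _ : Unit => (1 : k)) X A n

/-- Strong excision of a maximal simplex. -/
theorem finrank_add_simplex {k : Type} [Field k] {S : Finset (Finset (Fin N))}
    {I : Finset (Fin N)} (hIS : I ∈ S)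
    (hmax : ∀ J ∈ S, I ⊆ J → J = I) (hfc : ∀ J, J ⊂ I → J ∈ S) (hne : I.Nonempty) (n : ℕ) :
    Module.finrank k (Hrs k (cpx S) (cpx (S.erase I)) n) =
      Module.finrank k (Hrs k (smp I) (cpx (I.powerset.erase I)) n) := by
  classical
  obtain ⟨l, hl⟩ : ∃ l, I.card = l + 1 := by
    have := Finset.card_pos.2 hne
    exact ⟨I.card - 1, by omega⟩
  obtain ⟨ε, hε, a1, a2, a3, D, d1, d2, d3, d4, d5⟩ := exists_push hmax hfc hl
  have hsub : smp I ⊆ cpx S := fun x hx => ⟨I, hIS, hx⟩
  obtain ⟨ε', hε', b1, b2, b3, D', e1, e2, e3, e4, e5⟩ :=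
    exists_push (S := I.powerset) (I := I)
      (fun J hJ h => Finset.Subset.antisymm (Finset.mem_powerset.1 hJ) h)
      (fun J hJ => Finset.mem_powerset.2 hJ.subset) hl
  obtain rfl : ε' = ε := by rw [a3, b3]
  have hX : (nearB S I ε') ⊆ cpx S := fun x hx => hx.1
  have hX' : (nearB I.powerset I ε') ⊆ cpx I.powerset := fun x hx => hx.1
  have f1 := resR_bijective_of_push (k := k) (χ := fun _ : Unit => (1 : k)) a1 hX d1 d2 d3 d4 d5 n
  have f2 := resR_bijective_of_push (k := k) (χ := fun _ : Unit => (1 : k)) b1 hX' e1 e2 e3 e4 e5 n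
  have f3 := excision_bijective (k := k) (a := tr (Fin N → ℝ)) (χ := fun _ : Unit => (1 : k))
    (X := cpx S) (A := nearB S I ε') (L := smp I) hsub (fun _ _ => Iff.rfl) hε' a2 n
  have g1 := (LinearEquiv.ofBijective _ f1).finrank_eq
  have g2 := (LinearEquiv.ofBijective _ f2).finrank_eq
  have g3 := (LinearEquiv.ofBijective _ f3).finrank_eq
  have hint : smp I ∩ nearB S I ε' = nearB I.powerset I ε' := by
    ext x
    constructor
    · rintro ⟨hx, -, hx2⟩
      exact ⟨by rw [← smp_eq_cpx]; exact hx, hx2⟩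
    · rintro ⟨hx, hx2⟩
      rw [← smp_eq_cpx] at hx
      exact ⟨hx, hsub hx, hx2⟩
  have g4 : Module.finrank k (Hrs k (smp I) (smp I ∩ nearB S I ε') n) =
      Module.finrank k (Hrs k (cpx I.powerset) (nearB I.powerset I ε') n) := by
    rw [hint, ← smp_eq_cpx]
  rw [smp_eq_cpx I]
  rw [← g1, g3, g4, g2]

/-- A simplex is contractible. -/
theorem finrank_smp {k : Type} [Field k] {I : Finset (Fin N)} (hne : I.Nonempty) (n : ℕ) :
    Module.Finite k (Hs k (smp I) n) ∧
      Module.finrank k (Hs k (smp I) n) = if n = 0 then 1 else 0 := by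
  classical
  obtain ⟨v, hv⟩ := hne
  set x₀ : Fin N → ℝ := Pi.single v 1 with hx₀
  have hmem : x₀ ∈ smp I := by
    refine ⟨single_mem_stdSimplex ℝ v, fun i hi => ?_⟩
    rw [hx₀, Pi.single_eq_of_ne]
    rintro rfl
    exact hi hv
  refine finrank_contractible (k := k) hmem (D := fun s x => (1 - s) • x + s • x₀) ?_ ?_ ?_ n
  · refine IsHtpy.of_continuousOn (isCompact_smp I) ?_ ?_ fun _ _ _ _ _ => rfl
    · exact Continuous.continuousOn (by fun_prop)
    · intro s hs x hx
      refine ⟨(convex_stdSimplex ℝ (Fin N)) hx.1 hmem.1 (by linarith [hs.2]) hs.1 (by ring),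
        fun i hi => ?_⟩
      simp only [Pi.add_apply, Pi.smul_apply, smul_eq_mul]
      rw [hx.2 i hi, hmem.2 i hi]
      ring
  · intro x _
    simp
  · intro x _
    simp

theorem finite_cpx {k : Type} [Field k] {S : Finset (Finset (Fin N))} (hS : FC S) (n : ℕ) :
    Module.Finite k (Hs k (cpx S) n) ∧ Module.finrank k (Hs k (cpx S) n) ≤
      (S.filter fun I => I.card = n + 1).card := by
  have h := hh_cpx_le (1 : k) n _ S ∅ hS (fun _ h => absurd h (Finset.notMem_empty _))
    (Finset.empty_subset _) rfl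
  have he : cpx (∅ : Finset (Finset (Fin N))) = ∅ := by
    ext x; simp [cpx]
  rw [he, Finset.sdiff_empty] at h
  obtain ⟨h1, h2⟩ := finite_Hr h
  refine ⟨Module.Finite.equiv (HrEmpty (tr (Fin N → ℝ)) (fun _ : Unit => (1 : k)) _ n), ?_⟩
  rw [← (HrEmpty (tr (Fin N → ℝ)) (fun _ : Unit => (1 : k)) _ n).finrank_eq]
  exact h2

theorem finrank_cpx_eq_zero {k : Type} [Field k] {S : Finset (Finset (Fin N))} (hS : FC S) {n : ℕ}
    (hn : N ≤ n) : Module.finrank k (Hs k (cpx S) n) = 0 := by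
  have h := (finite_cpx (k := k) hS n).2
  have : S.filter (fun I => I.card = n + 1) = ∅ := by
    rw [Finset.filter_eq_empty_iff]
    intro I _ hI
    have := Finset.card_le_univ I
    rw [hI, Fintype.card_fin] at this
    omega
  rw [this, Finset.card_empty] at h
  omega

theorem finite_rel {k : Type} [Field k] {S T : Finset (Finset (Fin N))} (hS : FC S) (hT : FC T)
    (hTS : T ⊆ S) (n : ℕ) : Module.Finite k (Hrs k (cpx S) (cpx T) n) :=
  (finite_Hr (hh_cpx_le (1 : k) n _ S T hS hT hTS rfl)).1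

/-- The combinatorial Euler characteristic. -/
def eulerC (S : Finset (Finset (Fin N))) : ℤ := ∑ I ∈ S.erase ∅, (-1 : ℤ) ^ (I.card + 1)

theorem eulerC_erase {S : Finset (Finset (Fin N))} {I : Finset (Fin N)} (hI : I ∈ S)
    (hne : I.Nonempty) : eulerC S = eulerC (S.erase I) + (-1) ^ (I.card + 1) := by
  unfold eulerC
  rw [Finset.erase_right_comm, Finset.sum_erase_add]
  exact Finset.mem_erase.2 ⟨hne.ne_empty, hI⟩

theorem eulerC_powerset {I : Finset (Fin N)} (hne : I.Nonempty) : eulerC I.powerset = 1 := by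
  have h := Finset.sum_powerset_neg_one_pow_card_of_nonempty hne
  rw [← Finset.sum_erase_add _ _ (Finset.empty_mem_powerset I), Finset.card_empty, pow_zero] at h
  unfold eulerC
  have : ∀ J ∈ I.powerset.erase ∅, (-1 : ℤ) ^ (J.card + 1) = -(-1) ^ J.card := fun J _ => by
    rw [pow_succ]; ring
  rw [Finset.sum_congr rfl this, Finset.sum_neg_distrib]
  linarith

/-- **The Euler characteristic of a finite simplicial complex.** -/
theorem euler_cpx {k : Type} [Field k] : ∀ (c : ℕ) (S : Finset (Finset (Fin N))), FC S →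
    S.card = c → ∀ m, N ≤ m → ∑ n ∈ Finset.range (m + 1),
      (-1 : ℤ) ^ n * (Module.finrank k (Hs k (cpx S) n) : ℤ) = eulerC S := by
  classical
  intro c
  induction c using Nat.strong_induction_on with
  | _ c ih =>
  intro S hS hc m hm
  rcases (S.erase ∅).eq_empty_or_nonempty with he | hne
  · have h1 : ∀ n, Module.finrank k (Hs k (cpx S) n) = 0 := by
      intro n
      have h := (finite_cpx (k := k) hS n).2
      have : S.filter (fun I => I.card = n + 1) = ∅ := by
        rw [Finset.filter_eq_empty_iff]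
        intro I hI hIc
        have : I ∈ S.erase ∅ := Finset.mem_erase.2 ⟨by rintro rfl; simp at hIc, hI⟩
        rw [he] at this
        exact absurd this (Finset.notMem_empty _)
      rw [this, Finset.card_empty] at h
      omega
    unfold eulerC
    rw [he]
    simp [h1]
  · obtain ⟨I, hI, hImax⟩ := Finset.exists_max_image (S.erase ∅) Finset.card hne
    obtain ⟨hI0, hIS⟩ := Finset.mem_erase.1 hI
    have hIne : I.Nonempty := Finset.nonempty_iff_ne_empty.2 hI0
    have hmax : ∀ J ∈ S, I ⊆ J → J = I := by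
      intro J hJ hIJ
      have hJ0 : J ≠ ∅ := by
        rintro rfl
        exact hI0 (Finset.subset_empty.1 hIJ)
      exact (Finset.eq_of_subset_of_card_le hIJ (hImax J (Finset.mem_erase.2 ⟨hJ0, hJ⟩))).symm
    have hfcI : ∀ J, J ⊂ I → J ∈ S := fun J hJ => hS I hIS J hJ
    have hfc' : FC (S.erase I) := by
      intro J hJ J' hJ'
      obtain ⟨hJI, hJS⟩ := Finset.mem_erase.1 hJ
      refine Finset.mem_erase.2 ⟨?_, hS J hJS J' hJ'⟩
      rintro rfl
      exact hJI (hmax J hJS hJ'.subset)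
    have hfcP : FC I.powerset := fun J hJ J' hJ' =>
      Finset.mem_powerset.2 (hJ'.subset.trans (Finset.mem_powerset.1 hJ))
    have hfcP' : FC (I.powerset.erase I) := by
      intro J hJ J' hJ'
      obtain ⟨hJI, hJS⟩ := Finset.mem_erase.1 hJ
      refine Finset.mem_erase.2 ⟨?_, hfcP J hJS J' hJ'⟩
      rintro rfl
      exact hJI (Finset.Subset.antisymm (Finset.mem_powerset.1 hJS) hJ'.subset)
    have hcard1 : (S.erase I).card < c := by
      rw [← hc]
      exact Finset.card_erase_lt_of_mem hIS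
    have hcard2 : (I.powerset.erase I).card < c := by
      refine lt_of_le_of_lt (Finset.card_le_card ?_) hcard1
      intro J hJ
      obtain ⟨hJI, hJP⟩ := Finset.mem_erase.1 hJ
      exact Finset.mem_erase.2 ⟨hJI, hfcI J
        (Finset.ssubset_iff_subset_ne.2 ⟨Finset.mem_powerset.1 hJP, hJI⟩)⟩
    have i1 := ih _ hcard1 (S.erase I) hfc' rfl m hm
    have i2 := ih _ hcard2 (I.powerset.erase I) hfcP' rfl m hm
    have p1 := euler_pair (k := k) (a := tr (Fin N → ℝ)) (χ := fun _ : Unit => (1 : k))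
      (X := cpx S) (A := cpx (S.erase I)) (cpx_mono (Finset.erase_subset _ _))
      (fun _ _ => Iff.rfl) (finite_rel hS hfc' (Finset.erase_subset _ _))
      (fun n => (finite_cpx hS n).1) (fun n => (finite_cpx hfc' n).1) (m := m)
      (finrank_cpx_eq_zero hfc' hm)
    have p2 := euler_pair (k := k) (a := tr (Fin N → ℝ)) (χ := fun _ : Unit => (1 : k))
      (X := cpx I.powerset) (A := cpx (I.powerset.erase I)) (cpx_mono (Finset.erase_subset _ _))
      (fun _ _ => Iff.rfl) (finite_rel hfcP hfcP' (Finset.erase_subset _ _))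
      (fun n => (finite_cpx hfcP n).1) (fun n => (finite_cpx hfcP' n).1) (m := m)
      (finrank_cpx_eq_zero hfcP' hm)
    have r1 : ∀ n, Module.finrank k (Hrs k (cpx S) (cpx (S.erase I)) n) =
        Module.finrank k (Hrs k (cpx I.powerset) (cpx (I.powerset.erase I)) n) := fun n => by
      rw [finrank_add_simplex hIS hmax hfcI hIne n, ← smp_eq_cpx]
    have s1 : ∑ n ∈ Finset.range (m + 1), (-1 : ℤ) ^ n *
        (Module.finrank k (Hs k (cpx I.powerset) n) : ℤ) = 1 := by
      rw [← smp_eq_cpx]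
      rw [Finset.sum_eq_single 0]
      · rw [(finrank_smp hIne 0).2]; simp
      · intro n _ hn
        rw [(finrank_smp hIne n).2, if_neg hn]; simp
      · intro h
        exact absurd (Finset.mem_range.2 (Nat.succ_pos m)) h
    have q1 := eulerC_erase hIS hIne
    have q2 := eulerC_erase (Finset.mem_powerset_self I) hIne
    rw [eulerC_powerset hIne] at q2
    rw [p1, i1, q1]
    rw [i2, s1] at p2
    have : ∑ n ∈ Finset.range (m + 1), (-1 : ℤ) ^ n *
        (Module.finrank k (Hrs k (cpx S) (cpx (S.erase I)) n) : ℤ) =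
        ∑ n ∈ Finset.range (m + 1), (-1 : ℤ) ^ n *
        (Module.finrank k (Hrs k (cpx I.powerset) (cpx (I.powerset.erase I)) n) : ℤ) :=
      Finset.sum_congr rfl fun n _ => by rw [r1 n]
    linarith

end Vale.Agent.P216.H41
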