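import Vale.Agent.P216.H41.Eul3

/-!
# The Betti numbers of a space homotopy equivalent to complex projective space
(P216, block EULER)
-/

open Set Finset

namespace Vale.Agent.P216.H41

open Vale.Agent.P216.AS
open Vale.Agent.P265.AS (hh Zs Bs qr)

theorem finite_CP (k : Type) [Field k] (N q : ℕ) : Module.Finite k (Hs k (H391.CP N) q) ∧
    Module.finrank k (Hs k (H391.CP N) q) ≤ if Even q ∧ q < 2 * N then 1 else 0 := by
  have h : hh id (1 : k) (H391.CP N) ∅ q ≤
      ((if Even q ∧ q < 2 * N then 1 else 0 : ℕ) : Cardinal) := by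
    refine (H391.hh_CP_le (1 : k) N q).trans ?_
    split_ifs <;> simp
  obtain ⟨h1, h2⟩ := finite_Hr h
  refine ⟨Module.Finite.equiv (HrEmpty (tr _) (fun _ : Unit => (1 : k)) _ q), ?_⟩
  rw [← (HrEmpty (tr _) (fun _ : Unit => (1 : k)) _ q).finrank_eq]
  exact h2

theorem finrank_zero_pos {k : Type} [Field k] {E : Type} [PseudoMetricSpace E] {X : Set E}
    (hX : X.Nonempty) [Module.Finite k (Hs k X 0)] : 1 ≤ Module.finrank k (Hs k X 0) := by
  obtain ⟨x₀, hx₀⟩ := hX
  have hz : (fun _ => 1 : (Fin (0 + 1) → E) → k) ∈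
      Zc (Cc (tr E) (fun _ : Unit => (1 : k)) X)
        (Zr (tr E) (fun _ : Unit => (1 : k)) X X) 0 := by
    rw [mem_Zc_abs]
    refine ⟨fun _ _ _ => by simp, 1, one_pos, fun y _ => ?_⟩
    rw [P265.AS.d_succ_apply, P265.AS.d_zero_apply]; simp
  have hne : (H.mk _ hz : Hs k X 0) ≠ 0 := by
    intro h
    rw [H.mk_eq_zero, mem_Bc_zero] at h
    obtain ⟨-, ε, hε, h⟩ := h
    exact one_ne_zero (h (fun _ => x₀) ⟨fun _ => hx₀, fun _ _ => by simpa using hε⟩)
  have : Nontrivial (Hs k X 0) := ⟨_, _, hne⟩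
  exact Module.finrank_pos

/-- **The Euler characteristic of a compact space homotopy equivalent to `ℂP^n`** is positive,
for all fields. -/
theorem euler_CPn {M : Type} [PseudoMetricSpace M] [CompactSpace M] (n : ℕ)
    (e : ContinuousMap.HomotopyEquiv M (CPn n)) (k : Type) [Field k] :
    (∀ q, Module.Finite k (Hs k (univ : Set M) q)) ∧ ∃ m₀, ∀ m, m₀ ≤ m →
      0 < ∑ q ∈ Finset.range m,
        (-1 : ℤ) ^ q * (Module.finrank k (Hs k (univ : Set M) q) : ℤ) := by
  have key : ∀ q, Nonempty (Hs k (H391.CP (n + 1)) q ≃ₗ[k] Hs k (univ : Set M) q) := fun q =>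
    nonempty_equiv_of_homotopyEquiv (H391.isCompact_CP (n + 1)) e q
  have hfr : ∀ q, Module.finrank k (Hs k (univ : Set M) q) =
      Module.finrank k (Hs k (H391.CP (n + 1)) q) := fun q => (key q).some.finrank_eq.symm
  refine ⟨fun q => ?_, 1, fun m hm => ?_⟩
  · have := (finite_CP k (n + 1) q).1
    exact Module.Finite.equiv (key q).some
  · have hnn : ∀ q, (0 : ℤ) ≤
        (-1 : ℤ) ^ q * (Module.finrank k (Hs k (univ : Set M) q) : ℤ) := by
      intro q
      rw [hfr]
      rcases Nat.even_or_odd q with h | h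
      · rw [h.neg_one_pow]; simp
      · have h1 := (finite_CP k (n + 1) q).2
        rw [if_neg (fun h2 => (Nat.not_even_iff_odd.2 h) h2.1)] at h1
        rw [Nat.le_zero.1 h1]; simp
    refine Finset.sum_pos' (fun q _ => hnn q) ⟨0, Finset.mem_range.2 hm, ?_⟩
    rw [hfr, pow_zero, one_mul]
    have := (finite_CP k (n + 1) 0).1
    exact_mod_cast finrank_zero_pos (k := k) (H391.CP_nonempty n)

end Vale.Agent.P216.H41
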