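import Vale.Agent.P265.H336.Susp

/-!
# Cohomology of the standard simplex relative to a neighbourhood of its boundary
(P216, block FINRANK)
-/

open Set Finset

namespace Vale.Agent.P216.H41

open Vale.Agent.P265.AS

section Simplex

variable {l : ℕ}

/-- Positive part, normalised. -/
noncomputable def nrm {n : ℕ} (v : Fin n → ℝ) : Fin n → ℝ := fun j =>
  max (v j) 0 / ∑ i, max (v i) 0

theorem one_le_sum_max {n : ℕ} {v : Fin n → ℝ} (h : ∑ i, v i = 1) : 1 ≤ ∑ i, max (v i) 0 := by
  rw [← h]
  exact Finset.sum_le_sum fun i _ => le_max_left _ _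

theorem nrm_mem {n : ℕ} {v : Fin n → ℝ} (h : ∑ i, v i = 1) : nrm v ∈ stdSimplex ℝ (Fin n) := by
  have h1 := one_le_sum_max h
  refine ⟨fun i => div_nonneg (le_max_right _ _) (by linarith), ?_⟩
  unfold nrm
  rw [← Finset.sum_div, div_self (by linarith)]

theorem nrm_le {n : ℕ} {v : Fin n → ℝ} (h : ∑ i, v i = 1) (j : Fin n) :
    nrm v j ≤ max (v j) 0 :=
  div_le_self (le_max_right _ _) (one_le_sum_max h)

theorem nrm_of_mem {n : ℕ} {v : Fin n → ℝ} (h : v ∈ stdSimplex ℝ (Fin n)) : nrm v = v := by
  funext j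
  unfold nrm
  have : ∀ i, max (v i) 0 = v i := fun i => max_eq_left (h.1 i)
  simp only [this]
  rw [h.2, div_one]

theorem continuousOn_nrm {n : ℕ} : ContinuousOn (nrm (n := n)) {v | ∑ i, v i = 1} := by
  refine continuousOn_pi.2 fun j => ?_
  refine ContinuousOn.div ?_ ?_ fun v hv => ?_
  · exact ((continuous_apply j).max continuous_const).continuousOn
  · exact (continuous_finsetSum _ fun i _ =>
      (continuous_apply i).max continuous_const).continuousOn
  · have := one_le_sum_max (v := v) hv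
    exact (by linarith : (0 : ℝ) < ∑ i, max (v i) 0).ne'

/-- the part of the standard simplex near the boundary -/
def bd (n : ℕ) (ε : ℝ) : Set (Fin n → ℝ) := {x | x ∈ stdSimplex ℝ (Fin n) ∧ ∃ i, x i ≤ ε}

theorem stdSimplex_le_one {n : ℕ} {x : Fin n → ℝ} (h : x ∈ stdSimplex ℝ (Fin n)) (i : Fin n) :
    x i ≤ 1 := by
  rw [← h.2]
  exact Finset.single_le_sum (fun j _ => h.1 j) (Finset.mem_univ i)

theorem hh_stdSimplex_le {k : Type} [Field k] (l : ℕ) (χ : k) (j : ℕ) :
    hh id χ (stdSimplex ℝ (Fin (l + 1))) (bd (l + 1) (1 / (2 * (l + 1)))) j ≤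
      if j = l then 1 else 0 := by
  have hl : (0 : ℝ) < (l : ℝ) + 1 := by positivity
  set c₀ : ℝ := 1 / (l + 1) with hc₀
  have hc₀pos : 0 < c₀ := by positivity
  have hc₀le : c₀ ≤ 1 := by
    rw [hc₀, div_le_one hl]
    linarith [Nat.cast_nonneg (α := ℝ) l]
  have hlc : ((l : ℝ) + 1) * c₀ = 1 := by rw [hc₀]; field_simp
  set b : ℝ := c₀ * c₀ / 2 with hb
  have hbpos : 0 < b := by positivity
  have hble : b ≤ 1 := by
    rw [hb]; nlinarith
  set ε : ℝ := 1 / (2 * (l + 1)) with hε
  have hεc : ε = c₀ / 2 := by rw [hε, hc₀]; field_simp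
  set K : ℝ := 1 / b with hK
  have hKb : K * b = 1 := by rw [hK]; field_simp
  have hK1 : 1 ≤ K := by rw [hK, le_div_iff₀ hbpos]; linarith
  set φ : (Fin (l + 1) → ℝ) → (Fin l → ℝ) := fun x i => x i.succ - c₀ with hφ
  set w : (Fin l → ℝ) → (Fin (l + 1) → ℝ) := fun u =>
    Fin.cons (c₀ + K * (-∑ i, u i)) (fun i => c₀ + K * u i) with hw
  have hwsum : ∀ u, ∑ i, w u i = 1 := by
    intro u
    rw [hw, Fin.sum_univ_succ]
    simp only [Fin.cons_zero, Fin.cons_succ]
    rw [Finset.sum_add_distrib, ← Finset.mul_sum, Finset.sum_const, Finset.card_univ,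
      Fintype.card_fin, nsmul_eq_mul]
    linarith
  refine le_trans (hh_le_of_retract (g' := id) (X' := cube l 1) (A' := cubeOut l 1 b)
    (φ := φ) (ψ := fun u => nrm (w u))
    (H := fun s x => nrm (fun j => c₀ + (1 + s * (K - 1)) * (x j - c₀))) ?_ ?_ ?_ ?_ ?_ ?_ ?_ χ j)
    (hh_cube_le l hbpos hble χ j)
  · -- φ
    refine ⟨fun x hx i => ?_, fun x hx => ?_, fun _ _ => rfl, ?_⟩
    · rw [hφ, abs_le]
      have h1 := hx.1 i.succ
      have h2 := stdSimplex_le_one hx i.succ
      constructor <;> dsimp only <;> linarith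
    · obtain ⟨hx, i, hi⟩ := hx
      refine ⟨fun i => ?_, ?_⟩
      · rw [hφ, abs_le]
        have h1 := hx.1 i.succ
        have h2 := stdSimplex_le_one hx i.succ
        constructor <;> dsimp only <;> linarith
      · by_contra hcon
        push Not at hcon
        have hsum : ∑ i : Fin l, φ x i = c₀ - x 0 := by
          have h1 := hx.2
          rw [Fin.sum_univ_succ] at h1
          rw [hφ]
          simp only
          rw [Finset.sum_sub_distrib, Finset.sum_const, Finset.card_univ,
            Fintype.card_fin, nsmul_eq_mul]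
          linarith
        refine Fin.cases (motive := fun i => x i ≤ ε → False) ?_ (fun i => ?_) i hi
        · intro h0
          have h1 : ∑ i : Fin l, φ x i ≤ ∑ i : Fin l, b :=
            Finset.sum_le_sum fun i _ => (le_abs_self _).trans (hcon i).le
          rw [Finset.sum_const, Finset.card_univ, Fintype.card_fin, nsmul_eq_mul, hsum] at h1
          have h2 : ((l : ℝ) + 1) * b = c₀ / 2 := by
            rw [hb]
            calc ((l : ℝ) + 1) * (c₀ * c₀ / 2) = (((l : ℝ) + 1) * c₀) * c₀ / 2 := by ring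
              _ = c₀ / 2 := by rw [hlc]; ring
          nlinarith
        · intro h0
          have h1 := hcon i
          rw [abs_lt] at h1
          have h2 : b ≤ c₀ / 2 := by rw [hb]; nlinarith
          have h3 : -b < x i.succ - c₀ := h1.1
          linarith
    · refine uc_of_compact' (isCompact_stdSimplex ℝ (Fin (l + 1))) ?_
      refine Continuous.continuousOn (continuous_pi fun i => ?_)
      rw [hφ]
      fun_prop
  · -- ψ
    refine ⟨fun u _ => nrm_mem (hwsum u), fun u hu => ⟨nrm_mem (hwsum u), ?_⟩, fun _ _ => rfl, ?_⟩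
    · have hεpos : 0 ≤ ε := by rw [hεc]; positivity
      suffices h : ∃ j, w u j ≤ 0 by
        obtain ⟨j, hj⟩ := h
        refine ⟨j, (nrm_le (hwsum u) j).trans ?_⟩
        rw [max_eq_right hj]
        exact hεpos
      by_contra hcon
      push Not at hcon
      obtain ⟨-, i, hi⟩ := hu
      have h1 : w u i.succ = c₀ + K * u i := by rw [hw]; simp
      rcases le_abs'.1 hi with h | h
      · have h2 := hcon i.succ
        rw [h1] at h2
        nlinarith
      · have h2 : w u i.succ ≤ ∑ j, w u j :=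
          Finset.single_le_sum (fun j _ => (hcon j).le) (Finset.mem_univ _)
        rw [hwsum, h1] at h2
        nlinarith
    · refine uc_of_compact' (isCompact_cube l 1) ?_
      refine ContinuousOn.comp (t := {v : Fin (l + 1) → ℝ | ∑ i, v i = 1}) continuousOn_nrm ?_
        fun u _ => hwsum u
      refine Continuous.continuousOn (continuous_pi fun i => ?_)
      refine Fin.cases ?_ (fun i => ?_) i
      · simp only [hw, Fin.cons_zero]; fun_prop
      · simp only [hw, Fin.cons_succ]; fun_prop
  · -- homotopy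
    have hs1 : ∀ s ∈ Icc (0 : ℝ) 1, 1 ≤ 1 + s * (K - 1) := fun s hs => by
      nlinarith [hs.1]
    have hsum : ∀ (s : ℝ) (x : Fin (l + 1) → ℝ), x ∈ stdSimplex ℝ (Fin (l + 1)) →
        ∑ j, (c₀ + (1 + s * (K - 1)) * (x j - c₀)) = 1 := by
      intro s x hx
      rw [Finset.sum_add_distrib, ← Finset.mul_sum, Finset.sum_sub_distrib, hx.2,
        Finset.sum_const, Finset.card_univ, Fintype.card_fin, nsmul_eq_mul]
      push_cast
      rw [hlc]; ring
    refine ⟨fun s _ x hx => nrm_mem (hsum s x hx), fun s hs x hx => ⟨nrm_mem (hsum s x hx.1), ?_⟩,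
      fun _ _ _ _ => rfl, ?_⟩
    · obtain ⟨hx, i, hi⟩ := hx
      refine ⟨i, (nrm_le (hsum s x hx) i).trans (max_le ?_ (by rw [hεc]; positivity))⟩
      have h1 := hs1 s hs
      have h2 : x i - c₀ ≤ 0 := by linarith
      nlinarith
    · refine uc_of_compact (isCompact_stdSimplex ℝ (Fin (l + 1))) ?_
      refine ContinuousOn.comp (t := {v : Fin (l + 1) → ℝ | ∑ i, v i = 1}) continuousOn_nrm ?_
        fun (q : ℝ × (Fin (l + 1) → ℝ)) hq => hsum q.1 q.2 hq.2
      refine Continuous.continuousOn (continuous_pi fun i => ?_)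
      fun_prop
  · exact fun x hx => hx.1
  · exact fun u hu => hu.1
  · intro x hx
    have : (fun j => c₀ + (1 + (0 : ℝ) * (K - 1)) * (x j - c₀)) = x := by
      funext j; ring
    rw [this, nrm_of_mem hx]
  · intro x hx
    congr 1
    funext j
    have hx2 := hx.2
    rw [Fin.sum_univ_succ] at hx2
    refine Fin.cases ?_ (fun i => ?_) j
    · simp only [hw, hφ, Fin.cons_zero]
      rw [Finset.sum_sub_distrib, Finset.sum_const, Finset.card_univ,
        Fintype.card_fin, nsmul_eq_mul]
      have : (x 0 - c₀) = -((∑ i : Fin l, x i.succ) - l * c₀) := by linarith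
      rw [this]
      ring
    · simp only [hw, hφ, Fin.cons_succ]
      ring

end Simplex

end Vale.Agent.P216.H41
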